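import Vale.Agent.P216.H893.CaSC
import Vale.Agent.P216.H133C.SCov

/-!
# P216-C : the Cayley plane is simply connected
-/

namespace Vale.Agent.P216.H893

/-- **The Cayley plane is simply connected.** -/
instance instSimplyConnectedSpaceCaP2 : SimplyConnectedSpace ↥CaP2 :=
  H133C.simplyConnected_of_cover (U := Uc) (x₀ := b0) isOpen_Uc exists_Uc b0_mem_Uc
    (fun i γ h => loop_Uc i b0 γ h) fun i j x hx => joined_Uc i j x hx.1 hx.2

end Vale.Agent.P216.H893
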