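import Vale.Agent.P216.H893.CaDd
import Vale.Agent.P216.H893.CaSCI
import Vale.Agent.P216.H347C.Ring
import Vale.Agent.P216.H347C.Trans

/-!
# P216-C : the ring structure of the Cayley plane
-/

open Set

namespace Vale.Agent.P216.H893

/-- **[RING] for the Cayley plane.** -/
theorem ringOutCa : H133C.RingOut ↥CaP2 cellDecCa :=
  prCa.ringOut cellDecCa (fun _ hj => Dj_eq_Dd hj) (by norm_num)

/-- [RING] for every metric on a space homeomorphic to the Cayley plane. -/
theorem ringOutCa' (M : Type) [MetricSpace M] [CompactSpace M] (e : M ≃ₜ ↥CaP2) :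
    H133C.RingOut M (cellDecCa.trans e) :=
  H347C.ringOut_trans cellDecCa e ringOutCa

end Vale.Agent.P216.H893
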