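import Vale.Agent.P216.H893.CaFrames

/-!
# P216-C : the Cayley plane is compact and path connected
-/

open Set Quaternion Topology

namespace Vale.Agent.P216.H893

open Oct

noncomputable instance instFiniteDimensionalOct : FiniteDimensional ℝ Oct :=
  inferInstanceAs (FiniteDimensional ℝ (ℍ[ℝ] × ℍ[ℝ]))

instance instProperSpaceOct : ProperSpace Oct := FiniteDimensional.proper_real Oct

theorem norm_le_of_nq {x : Oct} (h : nq x ≤ 1) : ‖x‖ ≤ 1 := by
  have e := nq_eq x
  have h1 : ‖x.1‖ * ‖x.1‖ ≤ 1 := by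
    rw [← Quaternion.normSq_eq_norm_mul_self, Quaternion.normSq_def']
    nlinarith [sq_nonneg x.2.re, sq_nonneg x.2.imI, sq_nonneg x.2.imJ, sq_nonneg x.2.imK]
  have h2 : ‖x.2‖ * ‖x.2‖ ≤ 1 := by
    rw [← Quaternion.normSq_eq_norm_mul_self, Quaternion.normSq_def']
    nlinarith [sq_nonneg x.1.re, sq_nonneg x.1.imI, sq_nonneg x.1.imJ, sq_nonneg x.1.imK]
  have h3 : ‖x.1‖ ≤ 1 := by nlinarith [norm_nonneg x.1]
  have h4 : ‖x.2‖ ≤ 1 := by nlinarith [norm_nonneg x.2]
  exact max_le h3 h4

theorem xi_le_one {A : OMat} (hA : A ∈ CaP2) (i : Fin 3) : xi i A ≤ 1 := by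
  have h := sum_xi hA
  rw [← h]
  exact Finset.single_le_sum (f := fun i => xi i A) (fun _ _ => xi_nonneg hA _)
    (Finset.mem_univ i)

theorem isBounded_CaP2 : Bornology.IsBounded CaP2 := by
  refine (Metric.isBounded_closedBall (x := (0 : OMat)) (r := 1)).subset fun A hA => ?_
  rw [mem_closedBall_zero_iff]
  refine (pi_norm_le_iff_of_nonneg zero_le_one).2 fun i =>
    (pi_norm_le_iff_of_nonneg zero_le_one).2 fun j => norm_le_of_nq ?_
  rw [nq_entry hA]
  exact mul_le_one₀ (xi_le_one hA i) (xi_nonneg hA j) (xi_le_one hA j)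

theorem continuous_omm : Continuous fun A : OMat => omm A A := by
  refine continuous_pi fun i => continuous_pi fun j => ?_
  refine continuous_finsetSum _ fun k _ => ?_
  exact continuous_omul.comp ((continuous_entry i k).prodMk (continuous_entry k j))

theorem isClosed_CaP2 : IsClosed CaP2 := by
  have h1 : IsClosed {A : OMat | ∀ i j, A j i = star (A i j)} := by
    simp only [ofPred_forall]
    refine isClosed_iInter fun i => isClosed_iInter fun j => ?_
    exact isClosed_eq (continuous_entry j i) (continuous_ostar.comp (continuous_entry i j))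
  have h2 : IsClosed {A : OMat | omm A A = A} := isClosed_eq continuous_omm continuous_id
  have h3 : IsClosed {A : OMat | ∑ i, A i i = 1} :=
    isClosed_eq (continuous_finsetSum _ fun i _ => continuous_entry i i) continuous_const
  exact h1.inter (h2.inter h3)

/-- **The Cayley plane is compact.** -/
theorem isCompact_CaP2 : IsCompact CaP2 :=
  Metric.isCompact_of_isClosed_isBounded isClosed_CaP2 isBounded_CaP2

instance instCompactSpaceCaP2 : CompactSpace ↥CaP2 :=
  isCompact_iff_compactSpace.1 isCompact_CaP2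

instance instNonemptyCaP2 : Nonempty ↥CaP2 := ⟨e2⟩

theorem continuous_rk : Continuous fun p : (Oct × Oct) × ℝ => rk p.1.1 p.1.2 p.2 := by
  have x : Continuous fun p : (Oct × Oct) × ℝ => p.1.1 := continuous_fst.comp continuous_fst
  have y : Continuous fun p : (Oct × Oct) × ℝ => p.1.2 := continuous_snd.comp continuous_fst
  have t : Continuous fun p : (Oct × Oct) × ℝ => p.2 := continuous_snd
  have one : Continuous fun _ : (Oct × Oct) × ℝ => (1 : Oct) := continuous_const
  have a := (continuous_nq.comp x).smul one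
  have b := (continuous_nq.comp y).smul one
  have c := (t.pow 2).smul one
  have xs := continuous_ostar.comp x
  have ys := continuous_ostar.comp y
  have p01 := continuous_omul.comp (x.prodMk ys)
  have p02 := t.smul x
  have p12 := t.smul y
  refine continuous_pi fun i => continuous_pi fun j => ?_
  fin_cases i <;> fin_cases j
  · exact a
  · exact p01
  · exact p02
  · exact continuous_ostar.comp p01
  · exact b
  · exact p12
  · exact continuous_ostar.comp p02
  · exact continuous_ostar.comp p12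
  · exact c

theorem nq_path {x y : Oct} {t : ℝ} (h : nq x + nq y + t ^ 2 = 1) {s : ℝ} (h0 : 0 ≤ s)
    (h1 : s ≤ 1) : nq (s • x) + nq (s • y) + √(1 - s ^ 2 * (1 - t ^ 2)) ^ 2 = 1 := by
  have h2 : 0 ≤ 1 - t ^ 2 := by
    have := nq_nonneg x
    have := nq_nonneg y
    linarith
  have h3 : s ^ 2 ≤ 1 := by nlinarith
  have h4 : 0 ≤ 1 - s ^ 2 * (1 - t ^ 2) := by nlinarith [sq_nonneg t, mul_nonneg (sq_nonneg s) h2]
  rw [Real.sq_sqrt h4, nq_smul, nq_smul]
  linear_combination s ^ 2 * h

/-- the path from `(0, 0, 1)` to a point -/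
theorem joined_rk {x y : Oct} {t : ℝ} (ht : 0 ≤ t) (h : nq x + nq y + t ^ 2 = 1) :
    Joined (⟨rk 0 0 1, rk_mem (by rw [nq_zero]; norm_num)⟩ : ↥CaP2) ⟨rk x y t, rk_mem h⟩ := by
  have hc : Continuous fun s : unitInterval =>
      (((s.1 • x, s.1 • y), √(1 - s.1 ^ 2 * (1 - t ^ 2))) : (Oct × Oct) × ℝ) := by
    have hs : Continuous fun s : unitInterval => s.1 := continuous_subtype_val
    have c1 : Continuous fun s : unitInterval => s.1 • x := hs.smul continuous_const
    have c2 : Continuous fun s : unitInterval => s.1 • y := hs.smul continuous_const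
    have c3 : Continuous fun s : unitInterval => √(1 - s.1 ^ 2 * (1 - t ^ 2)) :=
      (continuous_const.sub ((hs.pow 2).mul continuous_const)).sqrt
    exact (c1.prodMk c2).prodMk c3
  refine ⟨⟨⟨fun s => ⟨rk (s.1 • x) (s.1 • y) √(1 - s.1 ^ 2 * (1 - t ^ 2)),
    rk_mem (nq_path h s.2.1 s.2.2)⟩, ?_⟩, ?_, ?_⟩⟩
  · exact (continuous_rk.comp hc).subtype_mk _
  · apply Subtype.ext
    change rk ((0 : ℝ) • x) ((0 : ℝ) • y) √(1 - 0 ^ 2 * (1 - t ^ 2)) = rk 0 0 1
    rw [zero_smul, zero_smul, zero_pow two_ne_zero, zero_mul, sub_zero, Real.sqrt_one]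
  · apply Subtype.ext
    change rk ((1 : ℝ) • x) ((1 : ℝ) • y) √(1 - 1 ^ 2 * (1 - t ^ 2)) = rk x y t
    rw [one_smul, one_smul, one_pow, one_mul, sub_sub_cancel, Real.sqrt_sq ht]

/-- **The Cayley plane is path connected.** -/
instance instPathConnectedSpaceCaP2 : PathConnectedSpace ↥CaP2 := by
  have h : ∀ a : ↥CaP2,
      Joined (⟨rk 0 0 1, rk_mem (by rw [nq_zero]; norm_num)⟩ : ↥CaP2) a := by
    rintro ⟨A, hA⟩
    obtain ⟨x, y, t, h0, h1, rfl⟩ := exists_rk hA
    exact joined_rk h0 h1
  exact ⟨⟨e2⟩, fun a b => (h a).symm.trans (h b)⟩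

end Vale.Agent.P216.H893
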