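import Vale.Agent.P216.H893.CaFrames

/-!
# P216-C : small balls and the push of the Cayley plane; the instance of `Frames`
-/

open Set Quaternion

namespace Vale.Agent.P216.H893

open Oct H133C

/-! ### Coordinates of the affine chart at `(0, 0, 1)` -/

theorem nq_ofTup (t : Fin 8 → ℝ) : nq (ofTup t) = ∑ c, t c ^ 2 := by
  rw [← en_tup_sq, tup_ofTup, BC.en_sq]

/-- the homogeneous vector of a point of `ℝ¹⁶` -/
noncomputable def wq (z : Fin (8 * 2) → ℝ) : Fin 3 → Oct := fun i =>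
  if h : i.1 < 2 then ofTup (fun c => z (finProdFinEquiv (c, (⟨i.1, h⟩ : Fin 2)))) else 1

theorem wq_two (z : Fin (8 * 2) → ℝ) : wq z 2 = 1 := dif_neg (by decide)

theorem wq_iy (z : Fin (8 * 2) → ℝ) (i : Fin 2) :
    wq z (iy le_rfl i) = ofTup fun c => z (finProdFinEquiv (c, i)) := dif_pos i.2

theorem continuous_wq : Continuous wq := by
  refine continuous_pi fun i => ?_
  unfold wq
  split_ifs with h
  · exact continuous_ofTup.comp (by fun_prop)
  · exact continuous_const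

theorem sum_split (g : Fin (8 * 2) → ℝ) :
    ∑ l, g l = ∑ i : Fin 2, ∑ c : Fin 8, g (finProdFinEquiv (c, i)) := by
  rw [← Equiv.sum_comp finProdFinEquiv g, Fintype.sum_prod_type, Finset.sum_comm]

theorem ns_wq (z : Fin (8 * 2) → ℝ) : ns (wq z) = 1 + BC.en z ^ 2 := by
  rw [BC.en_sq, sum_split, ns, Fin.sum_univ_three, wq_two, nq_one, Fin.sum_univ_two]
  have h0 : wq z 0 = _ := wq_iy z 0
  have h1 : wq z 1 = _ := wq_iy z 1
  rw [h0, h1, nq_ofTup, nq_ofTup]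
  ring

/-- the coordinates in `ℝ¹⁶` of a homogeneous vector -/
def vq (w : Fin 3 → Oct) (l : Fin (8 * 2)) : ℝ :=
  tup (w (iy le_rfl (finProdFinEquiv.symm l).2)) (finProdFinEquiv.symm l).1

theorem continuous_vq : Continuous vq := by
  refine continuous_pi fun l => ?_
  exact (continuous_apply _).comp (continuous_tup.comp (continuous_apply _))

theorem vq_wq (z : Fin (8 * 2) → ℝ) : vq (wq z) = z := by
  funext l
  obtain ⟨⟨c, i⟩, rfl⟩ := finProdFinEquiv.surjective l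
  rw [vq, Equiv.symm_apply_apply, wq_iy, tup_ofTup]

theorem wq_vq {w : Fin 3 → Oct} (h : w 2 = 1) : wq (vq w) = w := by
  have h3 : ∀ i : Fin 2, wq (vq w) (iy le_rfl i) = w (iy le_rfl i) := fun i => by
    rw [wq_iy]
    have : (fun c => vq w (finProdFinEquiv (c, i))) = tup (w (iy le_rfl i)) := by
      funext c
      rw [vq, Equiv.symm_apply_apply]
    rw [this, ofTup_tup]
  funext i
  fin_cases i
  · exact h3 0
  · exact h3 1
  · exact (wq_two _).trans h.symm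

/-! ### The ball -/

section

variable {κ : ℝ} (h0 : 0 < κ) (h1 : κ < 1)

/-- the radius of the ball in the chart -/
noncomputable def rr (κ : ℝ) : ℝ := √(1 / κ - 1)

include h0 h1 in
theorem rr_pos : 0 < rr κ := by
  refine Real.sqrt_pos.2 (sub_pos.2 ?_)
  rw [lt_div_iff₀ h0, one_mul]
  exact h1

include h0 h1 in
theorem rr_sq : rr κ ^ 2 = 1 / κ - 1 := by
  refine Real.sq_sqrt (sub_pos.2 ?_).le
  rw [lt_div_iff₀ h0, one_mul]
  exact h1

/-- `ℝ¹⁶`-coordinates of the point `a` -/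
noncomputable def va (κ : ℝ) (a : ↥CaP2) : Fin (8 * 2) → ℝ := (rr κ)⁻¹ • vq (ch 2 a.1)

/-- the point with coordinates `z` -/
noncomputable def pz (κ : ℝ) (z : Fin (8 * 2) → ℝ) : ↥CaP2 := ⟨npr (wq (rr κ • z)), npr_mem (wq_two _)⟩

theorem xi_pz (z : Fin (8 * 2) → ℝ) : xi 2 (pz κ z).1 = 1 / (1 + (|rr κ| * BC.en z) ^ 2) := by
  change xi 2 (npr _) = _
  rw [xi_npr, wq_two, nq_one, ns_wq, BC.en_smul]

include h0 h1 in
theorem va_pz (z : Fin (8 * 2) → ℝ) : va κ (pz κ z) = z := by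
  have h := rr_pos h0 h1
  change (rr κ)⁻¹ • vq (ch 2 (npr (wq (rr κ • z)))) = z
  rw [ch_npr (wq_two _), vq_wq, smul_smul, inv_mul_cancel₀ h.ne', one_smul]

include h0 h1 in
theorem pz_va {a : ↥CaP2} (ha : 0 < xi 2 a.1) : pz κ (va κ a) = a := by
  have h := rr_pos h0 h1
  apply Subtype.ext
  change npr (wq (rr κ • ((rr κ)⁻¹ • vq (ch 2 a.1)))) = a.1
  rw [smul_smul, mul_inv_cancel₀ h.ne', one_smul, wq_vq (ch_self a.2 ha), npr_ch a.2 ha]

include h0 h1 in
theorem xi_eq {a : ↥CaP2} (ha : 0 < xi 2 a.1) :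
    xi 2 a.1 = 1 / (1 + (1 / κ - 1) * BC.en (va κ a) ^ 2) := by
  have h := rr_pos h0 h1
  have h2 := xi_pz (κ := κ) (va κ a)
  rw [pz_va h0 h1 ha, mul_pow, sq_abs, rr_sq h0 h1] at h2
  exact h2

include h0 h1 in
theorem en_le_iff {a : ↥CaP2} (ha : 0 < xi 2 a.1) : κ ≤ xi 2 a.1 ↔ BC.en (va κ a) ≤ 1 := by
  have e := xi_eq h0 h1 ha
  have hn := BC.en_nonneg (va κ a)
  have hk : 0 < 1 / κ - 1 := by rw [← rr_sq h0 h1]; exact pow_pos (rr_pos h0 h1) 2
  have hd : 0 < 1 + (1 / κ - 1) * BC.en (va κ a) ^ 2 := by positivity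
  rw [e, le_div_iff₀ hd]
  have e2 : κ * (1 + (1 / κ - 1) * BC.en (va κ a) ^ 2) =
      κ + (1 - κ) * BC.en (va κ a) ^ 2 := by field_simp
  rw [e2]
  constructor
  · intro h
    by_contra hc
    push Not at hc
    have : 1 < BC.en (va κ a) ^ 2 := by nlinarith
    nlinarith
  · intro h
    have : BC.en (va κ a) ^ 2 ≤ 1 := pow_le_one₀ hn h
    nlinarith

include h0 h1 in
theorem en_eq_iff {a : ↥CaP2} (ha : 0 < xi 2 a.1) : xi 2 a.1 = κ ↔ BC.en (va κ a) = 1 := by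
  have e := xi_eq h0 h1 ha
  have hn := BC.en_nonneg (va κ a)
  have hk : 0 < 1 / κ - 1 := by rw [← rr_sq h0 h1]; exact pow_pos (rr_pos h0 h1) 2
  have hd : 0 < 1 + (1 / κ - 1) * BC.en (va κ a) ^ 2 := by positivity
  rw [e, div_eq_iff hd.ne']
  have e2 : κ * (1 + (1 / κ - 1) * BC.en (va κ a) ^ 2) =
      κ + (1 - κ) * BC.en (va κ a) ^ 2 := by field_simp
  rw [e2]
  constructor
  · intro h
    have h3 : (1 - κ) * (BC.en (va κ a) ^ 2 - 1) = 0 := by linarith
    rcases mul_eq_zero.1 h3 with h4 | h4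
    · linarith
    · exact (pow_eq_one_iff_of_nonneg hn two_ne_zero).1 (by linarith)
  · intro h
    rw [h]; ring

/-- **The ball around `(0, 0, 1)`.** -/
noncomputable def ballCa : Cell ↥CaP2 (8 * 2) {a | κ ≤ xi 2 a.1} {a | xi 2 a.1 = κ} where
  φ a := BC.toCube (va κ a)
  ψ y := pz κ (BC.ofCube y)
  K p := p.1
  φ_cont := by
    have hch : ContinuousOn (fun a : ↥CaP2 => ch 2 a.1) {a | κ ≤ xi 2 a.1} :=
      (continuousOn_ch 2).comp continuous_subtype_val.continuousOn fun a ha =>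
        lt_of_lt_of_le h0 ha
    have hv : ContinuousOn (fun a : ↥CaP2 => va κ a) {a | κ ≤ xi 2 a.1} :=
      (continuous_const_smul (rr κ)⁻¹).comp_continuousOn
        (continuous_vq.comp_continuousOn hch)
    exact BC.continuous_toCube.comp_continuousOn hv
  φ_mem a ha i := BC.toCube_mem ((en_le_iff h0 h1 (h0.trans_le ha)).1 ha) i
  φ_bd a ha := by
    have ha' : xi 2 a.1 = κ := ha
    have hx : 0 < xi 2 a.1 := by rw [ha']; exact h0
    have hne : Nonempty (Fin (8 * 2)) := ⟨⟨0, by norm_num⟩⟩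
    exact BC.toCube_bd ((en_eq_iff h0 h1 hx).1 ha')
  ψ_cont := by
    refine Continuous.continuousOn ?_
    refine Continuous.subtype_mk ?_ _
    have h3 : Continuous fun y : Fin (8 * 2) → ℝ => rr κ • BC.ofCube y :=
      (continuous_const_smul (rr κ)).comp BC.continuous_ofCube
    have h2 : Continuous fun y : Fin (8 * 2) → ℝ => wq (rr κ • BC.ofCube y) :=
      continuous_wq.comp h3
    exact continuousOn_npr.comp_continuous h2 fun y =>
      (zero_lt_one).trans_le (one_le_ns (wq_two _))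
  ψ_mem y hy := by
    have hx : 0 < xi 2 (pz κ (BC.ofCube y)).1 := by
      rw [xi_pz]; positivity
    refine (en_le_iff h0 h1 hx).2 ?_
    rw [va_pz h0 h1]
    exact BC.en_ofCube_le hy
  ψ_bd y hy hb := by
    have hx : 0 < xi 2 (pz κ (BC.ofCube y)).1 := by
      rw [xi_pz]; positivity
    refine (en_eq_iff h0 h1 hx).2 ?_
    rw [va_pz h0 h1]
    exact BC.en_ofCube_eq hy hb
  φψ y _ := by rw [va_pz h0 h1, BC.toCube_ofCube]
  K_cont := continuousOn_fst
  K_mem a ha _ _ := ha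
  K_bd a ha _ _ := ha
  K_zero _ _ := rfl
  K_one a ha := by
    rw [BC.ofCube_toCube, pz_va h0 h1 (h0.trans_le ha)]

end

/-! ### The push -/

/-- the trace of the scaled matrix -/
noncomputable def nn (a : OMat) (c : ℝ) : ℝ := xi 0 a + xi 1 a + c ^ 2 * xi 2 a

/-- scale the last coordinate by `c` -/
noncomputable def scl (a : OMat) (c : ℝ) : OMat :=
  hm ((nn a c)⁻¹ * xi 0 a) ((nn a c)⁻¹ * xi 1 a) ((nn a c)⁻¹ * (c ^ 2 * xi 2 a))
    ((nn a c)⁻¹ • a 0 1) ((nn a c)⁻¹ • (c • a 0 2)) ((nn a c)⁻¹ • (c • a 1 2))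

theorem scl_mem {a : OMat} (ha : a ∈ CaP2) {c : ℝ} (h : 0 < nn a c) : scl a c ∈ CaP2 := by
  obtain ⟨tr, np, nq', nr, hp, hq, hr⟩ := eqs_of_mem ha
  apply Eqs.mem
  constructor
  · rw [← mul_add, ← mul_add]
    exact inv_mul_cancel₀ h.ne'
  · rw [nq_smul, np]; ring
  · rw [nq_smul, nq_smul, nq']; ring
  · rw [nq_smul, nq_smul, nr]; ring
  · simp only [ostar_smul, omul_smul, smul_omul, hp, smul_smul]
    congr 1; ring
  · simp only [omul_smul, smul_omul, hq, smul_smul]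
    congr 1; ring
  · simp only [ostar_smul, omul_smul, smul_omul, hr, smul_smul]
    congr 1; ring

theorem scl_one {a : OMat} (ha : a ∈ CaP2) : scl a 1 = a := by
  have h : nn a 1 = 1 := by
    rw [nn, one_pow, one_mul]
    exact (eqs_of_mem ha).tr
  rw [scl, h, inv_one, one_mul, one_mul, one_mul, one_pow, one_mul, one_smul, one_smul, one_smul,
    one_smul, one_smul]
  exact (eq_hm ha.1).symm

theorem xi_scl (a : OMat) (c : ℝ) : xi 0 (scl a c) = (nn a c)⁻¹ * xi 0 a ∧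
    xi 1 (scl a c) = (nn a c)⁻¹ * xi 1 a ∧ xi 2 (scl a c) = (nn a c)⁻¹ * (c ^ 2 * xi 2 a) :=
  ⟨xi_hm0 .., xi_hm1 .., xi_hm2 ..⟩

theorem continuous_nn : Continuous fun q : OMat × ℝ => nn q.1 q.2 := by
  unfold nn
  exact (((continuous_xi 0).comp continuous_fst).add ((continuous_xi 1).comp continuous_fst)).add
    ((continuous_snd.pow 2).mul ((continuous_xi 2).comp continuous_fst))

theorem continuousOn_scl : ContinuousOn (fun q : OMat × ℝ => scl q.1 q.2) {q | 0 < nn q.1 q.2} := by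
  have hi : ContinuousOn (fun q : OMat × ℝ => (nn q.1 q.2)⁻¹) {q | 0 < nn q.1 q.2} :=
    continuous_nn.continuousOn.inv₀ fun q hq => by
      have : 0 < nn q.1 q.2 := hq
      exact this.ne'
  have x0 : Continuous fun q : OMat × ℝ => xi 0 q.1 := (continuous_xi 0).comp continuous_fst
  have x1 : Continuous fun q : OMat × ℝ => xi 1 q.1 := (continuous_xi 1).comp continuous_fst
  have x2 : Continuous fun q : OMat × ℝ => q.2 ^ 2 * xi 2 q.1 :=
    (continuous_snd.pow 2).mul ((continuous_xi 2).comp continuous_fst)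
  have e01 : Continuous fun q : OMat × ℝ => q.1 0 1 := (continuous_entry 0 1).comp continuous_fst
  have e02 : Continuous fun q : OMat × ℝ => q.2 • q.1 0 2 :=
    continuous_snd.smul ((continuous_entry 0 2).comp continuous_fst)
  have e12 : Continuous fun q : OMat × ℝ => q.2 • q.1 1 2 :=
    continuous_snd.smul ((continuous_entry 1 2).comp continuous_fst)
  have d0 := (hi.mul x0.continuousOn).smul (continuousOn_const (c := (1 : Oct)))
  have d1 := (hi.mul x1.continuousOn).smul (continuousOn_const (c := (1 : Oct)))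
  have d2 := (hi.mul x2.continuousOn).smul (continuousOn_const (c := (1 : Oct)))
  have f01 := hi.smul e01.continuousOn
  have f02 := hi.smul e02.continuousOn
  have f12 := hi.smul e12.continuousOn
  refine continuousOn_pi.2 fun i => continuousOn_pi.2 fun j => ?_
  fin_cases i <;> fin_cases j
  · exact d0
  · exact f01
  · exact f02
  · exact continuous_ostar.comp_continuousOn f01
  · exact d1
  · exact f12
  · exact continuous_ostar.comp_continuousOn f02
  · exact continuous_ostar.comp_continuousOn f12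
  · exact d2

theorem nn_pos {a : OMat} (ha : a ∈ CaP2) (h : xi 2 a < 1) (c : ℝ) : 0 < nn a c := by
  have h1 := (eqs_of_mem ha).tr
  have h2 := xi_nonneg ha 2
  rw [nn]
  have h3 : 0 ≤ c ^ 2 * xi 2 a := by positivity
  linarith

open Classical in
/-- the push -/
noncomputable def pushF (p : ↥CaP2 × ℝ) : ↥CaP2 :=
  if h : 0 < nn p.1.1 (1 - p.2) then ⟨scl p.1.1 (1 - p.2), scl_mem p.1.2 h⟩ else p.1

theorem pushF_val {p : ↥CaP2 × ℝ} (h : 0 < nn p.1.1 (1 - p.2)) :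
    (pushF p).1 = scl p.1.1 (1 - p.2) := by
  rw [pushF, dif_pos h]

attribute [local irreducible] scl nn

theorem pushF_cont {κ : ℝ} (h1 : κ < 1) :
    ContinuousOn pushF ({a : ↥CaP2 | xi 2 a.1 ≤ κ} ×ˢ Icc (0 : ℝ) 1) := by
  have h3 : ∀ p : ↥CaP2 × ℝ, p ∈ {a : ↥CaP2 | xi 2 a.1 ≤ κ} ×ˢ Icc (0 : ℝ) 1 →
      0 < nn p.1.1 (1 - p.2) := fun p hp => nn_pos p.1.2 (lt_of_le_of_lt hp.1 h1) _
  refine cont_sub (g := fun p => scl p.1.1 (1 - p.2)) ?_ fun p hp => pushF_val (h3 p hp)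
  have h4 : Continuous fun p : ↥CaP2 × ℝ => ((p.1.1, 1 - p.2) : OMat × ℝ) :=
    (continuous_subtype_val.comp continuous_fst).prodMk (continuous_const.sub continuous_snd)
  have h5 : MapsTo (fun p : ↥CaP2 × ℝ => ((p.1.1, 1 - p.2) : OMat × ℝ))
      ({a : ↥CaP2 | xi 2 a.1 ≤ κ} ×ˢ Icc (0 : ℝ) 1) {q | 0 < nn q.1 q.2} := h3
  exact continuousOn_scl.comp h4.continuousOn h5

attribute [local irreducible] tf

theorem continuous_tf' : Continuous fun p : ↥CaP2 × ↥CaP2 => tf p.1.1 p.2.1 := by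
  have h : Continuous fun p : ↥CaP2 × ↥CaP2 => ((p.1.1, p.2.1) : OMat × OMat) :=
    (continuous_subtype_val.comp continuous_fst).prodMk
      (continuous_subtype_val.comp continuous_snd)
  exact continuous_tf.comp h

theorem ball_ex {κ : ℝ} (h0 : 0 < κ) (h1 : κ < 1) :
    Nonempty (Cell ↥CaP2 (8 * 2) {a : ↥CaP2 | κ ≤ tf a.1 e2.1} {a | tf a.1 e2.1 = κ}) := by
  have e1 : {a : ↥CaP2 | κ ≤ tf a.1 e2.1} = {a | κ ≤ xi 2 a.1} := by
    ext a; rw [mem_ofPred_eq, mem_ofPred_eq, tf_e2]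
  have e3 : {a : ↥CaP2 | tf a.1 e2.1 = κ} = {a | xi 2 a.1 = κ} := by
    ext a; rw [mem_ofPred_eq, mem_ofPred_eq, tf_e2]
  rw [e1, e3]
  exact ⟨ballCa h0 h1⟩

theorem pushF_zero {a : ↥CaP2} (ha : xi 2 a.1 < 1) : pushF (a, 0) = a := by
  apply Subtype.ext
  have h : 0 < nn (a, (0 : ℝ)).1.1 (1 - (a, (0 : ℝ)).2) := nn_pos a.2 ha _
  refine (pushF_val h).trans ?_
  change scl a.1 (1 - 0) = a.1
  rw [sub_zero, scl_one a.2]

theorem pushF_one {a : ↥CaP2} (ha : xi 2 a.1 < 1) : ∃ i < 2, pushF (a, 1) ∈ Dj i := by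
  have h : 0 < nn (a, (1 : ℝ)).1.1 (1 - (a, (1 : ℝ)).2) := nn_pos a.2 ha _
  have hv : (pushF (a, 1)).1 = scl a.1 0 := by
    refine (pushF_val h).trans ?_
    change scl a.1 (1 - 1) = scl a.1 0
    rw [sub_self]
  obtain ⟨x0, x1, x2⟩ := xi_scl a.1 0
  rw [← hv] at x0 x1 x2
  have p0 : 0 ≤ xi 0 (pushF (a, 1)).1 := xi_nonneg (pushF (a, 1)).2 0
  have p1 : 0 ≤ xi 1 (pushF (a, 1)).1 := xi_nonneg (pushF (a, 1)).2 1
  have p2 : xi 2 (pushF (a, 1)).1 = 0 := by rw [x2]; ring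
  rcases le_total (xi 0 (pushF (a, 1)).1) (xi 1 (pushF (a, 1)).1) with hle | hle
  · refine ⟨1, by norm_num, fun l hl => ?_⟩
    rw [dgN_of_lt (Nat.lt_succ_of_le hl), dgN_of_lt (by norm_num : 1 < 3)]
    interval_cases l
    · exact hle
    · exact le_rfl
    · exact p2.le.trans p1
  · refine ⟨0, by norm_num, fun l hl => ?_⟩
    rw [dgN_of_lt (Nat.lt_succ_of_le hl), dgN_of_lt (by norm_num : 0 < 3)]
    interval_cases l
    · exact le_rfl
    · exact hle
    · exact p2.le.trans p0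

theorem push_ex {κ : ℝ} (h1 : κ < 1) : ∃ F : ↥CaP2 × ℝ → ↥CaP2,
    ContinuousOn F ({a : ↥CaP2 | tf a.1 e2.1 ≤ κ} ×ˢ Icc (0:ℝ) 1) ∧
    (∀ a : ↥CaP2, tf a.1 e2.1 ≤ κ → F (a, 0) = a) ∧
    ∀ a : ↥CaP2, tf a.1 e2.1 ≤ κ → F (a, 1) ∈ cellDecCa.L 2 := by
  have e1 : {a : ↥CaP2 | tf a.1 e2.1 ≤ κ} = {a | xi 2 a.1 ≤ κ} := by
    ext a; rw [mem_ofPred_eq, mem_ofPred_eq, tf_e2]
  refine ⟨pushF, ?_, fun a ha => ?_, fun a ha => ?_⟩
  · rw [e1]
    exact pushF_cont h1
  · rw [tf_e2] at ha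
    exact pushF_zero (ha.trans_lt h1)
  · rw [tf_e2] at ha
    exact pushF_one (ha.trans_lt h1)

/-- **The isometric frames of the Cayley plane.** -/
noncomputable def framesCa : Frames cellDecCa where
  f p := tf p.1.1 p.2.1
  f_cont := continuous_tf'
  f_le p := tf_le p.1.2 p.2.2
  f_one p := (tf_eq_one p.1.2 p.2.2).trans Subtype.ext_iff.symm
  p _ := e2
  G := Gj
  G' := Gj'
  G_cont _ hj := cont_Gj hj
  G'_cont _ hj := cont_Gj' hj
  GG' _ hj _ hb a := Gj_Gj' hj hb a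
  G'G _ hj _ hb a := Gj'_Gj hj hb a
  fG _ hj _ hb a := fG_Gj hj hb a
  b₀ := b0
  b₀_mem _ hj := b0_mem hj
  κ₀ := 0
  κ₀_lt := by norm_num
  ball _ _ _ h0 h1 := ball_ex h0 h1
  push _ _ h1 := push_ex h1

end Vale.Agent.P216.H893
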