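import Vale.Agent.P216.H893.CaPr

/-!
# P216-C : the handles of the Cayley plane are the handles of the abstract projective space
-/

open Set

namespace Vale.Agent.P216.H893

theorem Dj_eq_Dd {j : ℕ} (hj : j ≤ 2) : cellDecCa.D j = prCa.Dd (H347C.PrSp.jj hj) := by
  ext x
  constructor
  · intro h i
    have h1 := h i.1 (Nat.lt_succ_iff.1 i.2)
    rwa [dgN_of_lt i.2, dgN_of_lt (Nat.lt_succ_of_le hj)] at h1
  · intro h i hi
    rw [dgN_of_lt (Nat.lt_succ_of_le hi), dgN_of_lt (Nat.lt_succ_of_le hj)]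
    exact h ⟨i, Nat.lt_succ_of_le hi⟩

theorem Dd_eq_Dj (j : Fin (2 + 1)) : cellDecCa.D j.1 = prCa.Dd j :=
  Dj_eq_Dd (Nat.lt_succ_iff.1 j.2)

end Vale.Agent.P216.H893
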