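import Mathlib

/-!
# The homeomorphism between the Euclidean unit ball and the cube

`en x` = Euclidean norm on `Fin n → ℝ`. `toCube`, `ofCube` are inverse homeomorphisms between
`{en x ≤ 1}` and `[0,1]^n`, boundary to boundary.
-/

open Set Filter Topology

namespace Vale.Agent.P216.H893

namespace BC

variable {n : ℕ}

/-- Euclidean norm. -/
noncomputable def en (x : Fin n → ℝ) : ℝ := √(∑ i, x i ^ 2)

theorem en_nonneg (x : Fin n → ℝ) : 0 ≤ en x := Real.sqrt_nonneg _

theorem en_sq (x : Fin n → ℝ) : en x ^ 2 = ∑ i, x i ^ 2 :=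
  Real.sq_sqrt (Finset.sum_nonneg fun _ _ => sq_nonneg _)

theorem en_smul (r : ℝ) (x : Fin n → ℝ) : en (r • x) = |r| * en x := by
  rw [en, en, ← Real.sqrt_sq_eq_abs, ← Real.sqrt_mul (sq_nonneg r)]
  congr 1
  rw [Finset.mul_sum]
  refine Finset.sum_congr rfl fun i _ => ?_
  rw [Pi.smul_apply, smul_eq_mul]
  ring

theorem norm_le_en (x : Fin n → ℝ) : ‖x‖ ≤ en x := by
  rw [pi_norm_le_iff_of_nonneg (en_nonneg x)]
  intro i
  rw [Real.norm_eq_abs]
  refine Real.abs_le_sqrt ?_
  exact Finset.single_le_sum (f := fun i => x i ^ 2) (fun _ _ => sq_nonneg _) (Finset.mem_univ i)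

theorem en_le (x : Fin n → ℝ) : en x ≤ √n * ‖x‖ := by
  rw [en]
  refine Real.sqrt_le_iff.2 ⟨by positivity, ?_⟩
  rw [mul_pow, Real.sq_sqrt (Nat.cast_nonneg n)]
  calc ∑ i, x i ^ 2 ≤ ∑ _i : Fin n, ‖x‖ ^ 2 := Finset.sum_le_sum fun i _ => by
        rw [← sq_abs]
        exact pow_le_pow_left₀ (abs_nonneg _) (norm_le_pi_norm x i) 2
    _ = n * ‖x‖ ^ 2 := by simp

theorem en_pos {x : Fin n → ℝ} (hx : x ≠ 0) : 0 < en x :=
  (norm_pos_iff.2 hx).trans_le (norm_le_en x)

theorem en_zero : en (0 : Fin n → ℝ) = 0 := by simp [en]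

theorem continuous_en : Continuous (en : (Fin n → ℝ) → ℝ) := by
  unfold en
  fun_prop

/-- ball to cube, centred -/
noncomputable def f1 (x : Fin n → ℝ) : Fin n → ℝ := (en x / ‖x‖) • x

/-- cube to ball, centred -/
noncomputable def f2 (y : Fin n → ℝ) : Fin n → ℝ := (‖y‖ / en y) • y

theorem f1_zero : f1 (0 : Fin n → ℝ) = 0 := smul_zero _
theorem f2_zero : f2 (0 : Fin n → ℝ) = 0 := smul_zero _

theorem norm_f1 (x : Fin n → ℝ) : ‖f1 x‖ = en x := by
  by_cases hx : x = 0
  · rw [hx, f1_zero, norm_zero, en_zero]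
  · have h := norm_pos_iff.2 hx
    rw [f1, norm_smul, Real.norm_of_nonneg (div_nonneg (en_nonneg x) h.le)]
    field_simp

theorem en_f2 (y : Fin n → ℝ) : en (f2 y) = ‖y‖ := by
  by_cases hy : y = 0
  · rw [hy, f2_zero, norm_zero, en_zero]
  · have h := en_pos hy
    rw [f2, en_smul, abs_of_nonneg (div_nonneg (norm_nonneg y) h.le)]
    field_simp

theorem f2_f1 (x : Fin n → ℝ) : f2 (f1 x) = x := by
  by_cases hx : x = 0
  · rw [hx, f1_zero, f2_zero]
  · have h := norm_pos_iff.2 hx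
    have h2 := en_pos hx
    have e1 : en (f1 x) = en x / ‖x‖ * en x := by
      rw [f1, en_smul, abs_of_nonneg (div_nonneg h2.le h.le)]
    rw [f2, norm_f1, e1, f1, smul_smul]
    have : en x / (en x / ‖x‖ * en x) * (en x / ‖x‖) = 1 := by field_simp
    rw [this, one_smul]

theorem f1_f2 (y : Fin n → ℝ) : f1 (f2 y) = y := by
  by_cases hy : y = 0
  · rw [hy, f2_zero, f1_zero]
  · have h := norm_pos_iff.2 hy
    have h2 := en_pos hy
    have e1 : ‖f2 y‖ = ‖y‖ / en y * ‖y‖ := by
      rw [f2, norm_smul, Real.norm_of_nonneg (div_nonneg h.le h2.le)]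
    rw [f1, en_f2, e1, f2, smul_smul]
    have : ‖y‖ / (‖y‖ / en y * ‖y‖) * (‖y‖ / en y) = 1 := by field_simp
    rw [this, one_smul]

theorem continuous_of_bound {g : (Fin n → ℝ) → ℝ} {C : ℝ}
    (hg : ∀ x, x ≠ 0 → ContinuousAt g x) (hb : ∀ x, |g x| ≤ C) :
    Continuous fun x => g x • x := by
  rw [continuous_iff_continuousAt]
  intro x
  by_cases hx : x = 0
  · subst hx
    have h0 : g 0 • (0 : Fin n → ℝ) = 0 := smul_zero _
    rw [ContinuousAt, h0]
    rw [tendsto_zero_iff_norm_tendsto_zero]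
    refine squeeze_zero (fun _ => norm_nonneg _) (fun y => ?_)
      (g := fun y => C * ‖y‖) ?_
    · rw [norm_smul, Real.norm_eq_abs]
      exact mul_le_mul_of_nonneg_right (hb y) (norm_nonneg y)
    · have : Continuous fun y : Fin n → ℝ => C * ‖y‖ := by fun_prop
      have h := this.tendsto 0
      simpa using h
  · exact (hg x hx).smul continuousAt_id

theorem continuous_f1 : Continuous (f1 : (Fin n → ℝ) → Fin n → ℝ) := by
  refine continuous_of_bound (C := √n) (fun x hx => ?_) fun x => ?_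
  · exact continuous_en.continuousAt.div continuous_norm.continuousAt (norm_ne_zero_iff.2 hx)
  · by_cases hx : x = 0
    · rw [hx, norm_zero, div_zero, abs_zero]; positivity
    · have h := norm_pos_iff.2 hx
      rw [abs_of_nonneg (div_nonneg (en_nonneg x) h.le), div_le_iff₀ h]
      exact en_le x

theorem continuous_f2 : Continuous (f2 : (Fin n → ℝ) → Fin n → ℝ) := by
  refine continuous_of_bound (C := 1) (fun x hx => ?_) fun x => ?_
  · exact continuous_norm.continuousAt.div continuous_en.continuousAt (en_pos hx).ne'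
  · by_cases hx : x = 0
    · rw [hx, norm_zero, zero_div, abs_zero]; exact zero_le_one
    · have h := en_pos hx
      rw [abs_of_nonneg (div_nonneg (norm_nonneg x) h.le), div_le_one h]
      exact norm_le_en x

/-- from the ball to the cube -/
noncomputable def toCube (x : Fin n → ℝ) : Fin n → ℝ := fun i => (f1 x i + 1) / 2

/-- from the cube to the ball -/
noncomputable def ofCube (y : Fin n → ℝ) : Fin n → ℝ := f2 fun i => 2 * y i - 1

theorem continuous_toCube : Continuous (toCube : (Fin n → ℝ) → Fin n → ℝ) := by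
  unfold toCube
  exact continuous_pi fun i => (((continuous_apply i).comp continuous_f1).add
    continuous_const).div_const _

theorem continuous_ofCube : Continuous (ofCube : (Fin n → ℝ) → Fin n → ℝ) := by
  unfold ofCube
  exact continuous_f2.comp (by fun_prop)

theorem toCube_ofCube (y : Fin n → ℝ) : toCube (ofCube y) = y := by
  funext i
  rw [toCube, ofCube, f1_f2]
  ring

theorem ofCube_toCube (x : Fin n → ℝ) : ofCube (toCube x) = x := by
  have : (fun i => 2 * toCube x i - 1) = f1 x := by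
    funext i
    rw [toCube]
    ring
  rw [ofCube, this, f2_f1]

theorem toCube_mem {x : Fin n → ℝ} (hx : en x ≤ 1) (i : Fin n) : toCube x i ∈ Icc (0 : ℝ) 1 := by
  have h := norm_le_pi_norm (f1 x) i
  rw [norm_f1, Real.norm_eq_abs] at h
  have h2 := abs_le.1 (h.trans hx)
  rw [toCube]
  exact ⟨by linarith [h2.1], by linarith [h2.2]⟩

theorem en_ofCube_le {y : Fin n → ℝ} (hy : ∀ i, y i ∈ Icc (0 : ℝ) 1) : en (ofCube y) ≤ 1 := by
  rw [ofCube, en_f2, pi_norm_le_iff_of_nonneg zero_le_one]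
  intro i
  rw [Real.norm_eq_abs, abs_le]
  have := hy i
  exact ⟨by linarith [this.1], by linarith [this.2]⟩

theorem en_ofCube_eq {y : Fin n → ℝ} (hy : ∀ i, y i ∈ Icc (0 : ℝ) 1)
    (hb : ∃ i, y i = 0 ∨ y i = 1) : en (ofCube y) = 1 := by
  refine le_antisymm (en_ofCube_le hy) ?_
  obtain ⟨i, hi⟩ := hb
  rw [ofCube, en_f2]
  have h := norm_le_pi_norm (fun i => 2 * y i - 1) i
  refine le_trans ?_ h
  rcases hi with h | h
  · rw [h]; norm_num
  · rw [h]; norm_num

theorem toCube_bd [Nonempty (Fin n)] {x : Fin n → ℝ} (hx : en x = 1) :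
    ∃ i, toCube x i = 0 ∨ toCube x i = 1 := by
  have h : ‖f1 x‖ = 1 := by rw [norm_f1, hx]
  obtain ⟨i, hi⟩ : ∃ i, ‖f1 x i‖ = ‖f1 x‖ := by
    obtain ⟨i, -, hi⟩ := Finset.exists_mem_eq_sup' (s := Finset.univ) Finset.univ_nonempty
      (fun i => ‖f1 x i‖)
    refine ⟨i, le_antisymm (norm_le_pi_norm _ _) ?_⟩
    rw [pi_norm_le_iff_of_nonneg (norm_nonneg _)]
    intro j
    rw [← hi]
    exact Finset.le_sup' (f := fun i => ‖f1 x i‖) (Finset.mem_univ j)
  rw [h, Real.norm_eq_abs] at hi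
  refine ⟨i, ?_⟩
  rw [toCube]
  rcases (abs_eq zero_le_one).1 hi with h | h
  · right; rw [h]; norm_num
  · left; rw [h]; norm_num

theorem toCube_of_bd {x : Fin n → ℝ} (hx : en x ≤ 1) (hb : ∃ i, toCube x i = 0 ∨ toCube x i = 1) :
    en x = 1 := by
  have := en_ofCube_eq (toCube_mem hx) hb
  rwa [ofCube_toCube] at this

end BC

end Vale.Agent.P216.H893
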