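import Vale.Agent.P216.H893.CaChart
import Vale.Agent.P216.H133C.Cell

/-!
# P216-C : the handle decomposition of the Cayley plane by polydiscs

`D j = {P | P i i ≤ P j j for all i}` (the octonionic version of `H133C/HPCell.lean`).
-/

open Set Quaternion

namespace Vale.Agent.P216.H893

open Oct H133C

/-! ### Coordinates of octonions -/

/-- the 8 coordinates -/
def tup (x : Oct) : Fin 8 → ℝ :=
  ![x.1.re, x.1.imI, x.1.imJ, x.1.imK, x.2.re, x.2.imI, x.2.imJ, x.2.imK]

/-- the quaternion with given coordinates -/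
def mkQ (a b c d : ℝ) : ℍ[ℝ] := ⟨a, b, c, d⟩

theorem mkQ_re (a b c d : ℝ) : (mkQ a b c d).re = a := rfl
theorem mkQ_imI (a b c d : ℝ) : (mkQ a b c d).imI = b := rfl
theorem mkQ_imJ (a b c d : ℝ) : (mkQ a b c d).imJ = c := rfl
theorem mkQ_imK (a b c d : ℝ) : (mkQ a b c d).imK = d := rfl

/-- the octonion with given coordinates -/
def ofTup (t : Fin 8 → ℝ) : Oct := (mkQ (t 0) (t 1) (t 2) (t 3), mkQ (t 4) (t 5) (t 6) (t 7))

theorem ofTup_tup (x : Oct) : ofTup (tup x) = x := rfl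

theorem tup_ofTup (t : Fin 8 → ℝ) : tup (ofTup t) = t := by
  funext i
  fin_cases i <;> rfl

theorem continuous_tup : Continuous tup := by
  have h1 := Oct.continuous_fst'
  have h2 := Oct.continuous_snd'
  refine continuous_pi fun i => ?_
  fin_cases i
  · exact Quaternion.continuous_re.comp h1
  · exact Quaternion.continuous_imI.comp h1
  · exact Quaternion.continuous_imJ.comp h1
  · exact Quaternion.continuous_imK.comp h1
  · exact Quaternion.continuous_re.comp h2
  · exact Quaternion.continuous_imI.comp h2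
  · exact Quaternion.continuous_imJ.comp h2
  · exact Quaternion.continuous_imK.comp h2

theorem continuous_quat {X : Type} [TopologicalSpace X] {f0 f1 f2 f3 : X → ℝ} (h0 : Continuous f0)
    (h1 : Continuous f1) (h2 : Continuous f2) (h3 : Continuous f3) :
    Continuous fun x => mkQ (f0 x) (f1 x) (f2 x) (f3 x) := by
  have e : (fun x => mkQ (f0 x) (f1 x) (f2 x) (f3 x)) = fun x =>
      f0 x • mkQ 1 0 0 0 + f1 x • mkQ 0 1 0 0 + f2 x • mkQ 0 0 1 0 + f3 x • mkQ 0 0 0 1 := by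
    funext x
    apply Quaternion.ext <;>
    simp only [Quaternion.re_add, Quaternion.imI_add, Quaternion.imJ_add, Quaternion.imK_add,
      Quaternion.re_smul, Quaternion.imI_smul, Quaternion.imJ_smul, Quaternion.imK_smul,
      mkQ_re, mkQ_imI, mkQ_imJ, mkQ_imK, smul_eq_mul] <;>
    ring
  rw [e]
  exact (((h0.smul continuous_const).add (h1.smul continuous_const)).add
    (h2.smul continuous_const)).add (h3.smul continuous_const)

theorem continuous_ofTup : Continuous ofTup :=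
  (continuous_quat (continuous_apply 0) (continuous_apply 1) (continuous_apply 2)
    (continuous_apply 3)).prodMk (continuous_quat (continuous_apply 4) (continuous_apply 5)
    (continuous_apply 6) (continuous_apply 7))

theorem en_tup_sq (x : Oct) : BC.en (tup x) ^ 2 = nq x := by
  rw [BC.en_sq, nq_eq, Fin.sum_univ_eight]
  simp only [tup, Matrix.cons_val]
  ring

theorem en_tup (x : Oct) : BC.en (tup x) = √(nq x) := by
  rw [← en_tup_sq, Real.sqrt_sq (BC.en_nonneg _)]

/-- ball to cube -/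
noncomputable def bo (x : Oct) : Fin 8 → ℝ := BC.toCube (tup x)

/-- cube to ball -/
noncomputable def boI (y : Fin 8 → ℝ) : Oct := ofTup (BC.ofCube y)

theorem continuous_bo : Continuous bo := BC.continuous_toCube.comp continuous_tup

theorem continuous_boI : Continuous boI := continuous_ofTup.comp BC.continuous_ofCube

theorem bo_boI (y : Fin 8 → ℝ) : bo (boI y) = y := by
  rw [bo, boI, tup_ofTup, BC.toCube_ofCube]

theorem boI_bo (q : Oct) : boI (bo q) = q := by
  rw [bo, boI, BC.ofCube_toCube, ofTup_tup]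

theorem en_le_of {q : Oct} (h : nq q ≤ 1) : BC.en (tup q) ≤ 1 := by
  rw [en_tup]
  exact Real.sqrt_le_one.2 h

theorem bo_mem {q : Oct} (h : nq q ≤ 1) (i : Fin 8) : bo q i ∈ Icc (0 : ℝ) 1 :=
  BC.toCube_mem (en_le_of h) i

theorem bo_bd {q : Oct} (h : nq q = 1) : ∃ i, bo q i = 0 ∨ bo q i = 1 :=
  BC.toCube_bd (by rw [en_tup, h, Real.sqrt_one])

theorem nq_boI_le {y : Fin 8 → ℝ} (hy : ∀ i, y i ∈ Icc (0 : ℝ) 1) : nq (boI y) ≤ 1 := by
  rw [← en_tup_sq, boI, tup_ofTup]
  exact pow_le_one₀ (BC.en_nonneg _) (BC.en_ofCube_le hy)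

theorem nq_boI_bd {y : Fin 8 → ℝ} (hy : ∀ i, y i ∈ Icc (0 : ℝ) 1)
    (hb : ∃ i, y i = 0 ∨ y i = 1) : nq (boI y) = 1 := by
  rw [← en_tup_sq, boI, tup_ofTup, BC.en_ofCube_eq hy hb, one_pow]

/-! ### The polydiscs -/

/-- diagonal entry of index `j`, `-1` if `j` is too large -/
noncomputable def dgN (P : OMat) (j : ℕ) : ℝ := if h : j < 3 then xi ⟨j, h⟩ P else -1

theorem dgN_of_lt {P : OMat} {j : ℕ} (h : j < 3) : dgN P j = xi ⟨j, h⟩ P := dif_pos h

theorem continuous_dgN (j : ℕ) : Continuous fun P : OMat => dgN P j := by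
  unfold dgN
  split_ifs with h
  · exact continuous_xi _
  · exact continuous_const

/-- the polydisc -/
def Dj (j : ℕ) : Set ↥CaP2 := {P | ∀ i : ℕ, i ≤ 2 → dgN P.1 i ≤ dgN P.1 j}

theorem isClosed_Dj (j : ℕ) : IsClosed (Dj j) := by
  have : Dj j = ⋂ (i : ℕ) (_ : i ≤ 2), {P : ↥CaP2 | dgN P.1 i ≤ dgN P.1 j} := by
    ext P
    simp [Dj]
  rw [this]
  exact isClosed_iInter fun i => isClosed_iInter fun _ =>
    isClosed_le ((continuous_dgN i).comp continuous_subtype_val)
      ((continuous_dgN j).comp continuous_subtype_val)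

theorem cov_Dj (P : ↥CaP2) : ∃ j ≤ 2, P ∈ Dj j := by
  obtain ⟨j, hj⟩ := Finite.exists_max fun i => xi i P.1
  refine ⟨j.1, Nat.lt_succ_iff.1 j.2, fun i hi => ?_⟩
  rw [dgN_of_lt (Nat.lt_succ_of_le hi), dgN_of_lt j.2]
  exact hj _

section

variable {j : ℕ} (hj : j ≤ 2)

/-- the index `j` -/
abbrev ix (hj : j ≤ 2) : Fin 3 := ⟨j, Nat.lt_succ_of_le hj⟩

include hj in
theorem dg_le_of_mem {P : ↥CaP2} (hP : P ∈ Dj j) (i : Fin 3) :
    xi i P.1 ≤ xi (ix hj) P.1 := by
  have h := hP i.1 (Nat.lt_succ_iff.1 i.2)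
  rwa [dgN_of_lt i.2, dgN_of_lt (Nat.lt_succ_of_le hj)] at h

include hj in
theorem dg_pos {P : ↥CaP2} (hP : P ∈ Dj j) : 0 < xi (ix hj) P.1 := by
  by_contra h
  have h0 : ∀ i, xi i P.1 = 0 := fun i =>
    le_antisymm ((dg_le_of_mem hj hP i).trans (not_lt.1 h)) (xi_nonneg P.2 i)
  have := sum_xi P.2
  simp [h0] at this

include hj in
theorem nq_ch_le {P : ↥CaP2} (hP : P ∈ Dj j) (i : Fin 3) : nq (ch (ix hj) P.1 i) ≤ 1 := by
  have h := dg_pos hj hP
  rw [nq_ch P.2 h, div_le_one h]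
  exact dg_le_of_mem hj hP i

/-- the homogeneous vector with coordinates `w i` (`i < j`), `1`, and `c • w i` (`i > j`) -/
noncomputable def wv (c : ℝ) (j : Fin 3) (w : Fin 3 → Oct) : Fin 3 → Oct :=
  fun i => if i < j then w i else if i = j then 1 else c • w i

theorem wv_lt {c : ℝ} {j i : Fin 3} (h : i < j) (w : Fin 3 → Oct) :
    wv c j w i = w i := if_pos h

theorem wv_self {c : ℝ} (j : Fin 3) (w : Fin 3 → Oct) : wv c j w j = 1 := by
  rw [wv, if_neg (lt_irrefl _), if_pos rfl]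

theorem wv_gt {c : ℝ} {j i : Fin 3} (h : j < i) (w : Fin 3 → Oct) :
    wv c j w i = c • w i := by
  rw [wv, if_neg (not_lt.2 h.le), if_neg h.ne']

theorem continuous_wv (j : Fin 3) :
    Continuous fun p : ℝ × (Fin 3 → Oct) => wv p.1 j p.2 := by
  refine continuous_pi fun i => ?_
  rcases lt_trichotomy i j with h | h | h
  · have : (fun p : ℝ × (Fin 3 → Oct) => wv p.1 j p.2 i) = fun p => p.2 i := by
      funext p
      exact wv_lt h _
    rw [this]
    fun_prop
  · have : (fun p : ℝ × (Fin 3 → Oct) => wv p.1 j p.2 i) = fun _ => 1 := by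
      funext p
      rw [h]
      exact wv_self _ _
    rw [this]
    exact continuous_const
  · have : (fun p : ℝ × (Fin 3 → Oct) => wv p.1 j p.2 i) =
        fun p => p.1 • p.2 i := by
      funext p
      exact wv_gt h _
    rw [this]
    exact continuous_fst.smul ((continuous_apply i).comp continuous_snd)

/-- the point of the polydisc -/
noncomputable def pt (w : Fin 3 → Oct) (j : Fin 3) (h : w j = 1) : ↥CaP2 := ⟨npr w, npr_mem h⟩

theorem pt_mem {w : Fin 3 → Oct} (h : w (ix hj) = 1) (hw : ∀ i, nq (w i) ≤ 1) :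
    pt w (ix hj) h ∈ Dj j := by
  intro i hi
  have hn : 0 < ns w := (zero_lt_one).trans_le (one_le_ns h)
  rw [dgN_of_lt (Nat.lt_succ_of_le hi), dgN_of_lt (Nat.lt_succ_of_le hj)]
  change xi _ (npr w) ≤ xi _ (npr w)
  rw [xi_npr, xi_npr]
  refine div_le_div_of_nonneg_right ?_ hn.le
  rw [show w ⟨j, Nat.lt_succ_of_le hj⟩ = 1 from h, nq_one]
  exact hw _

theorem pt_bd {w : Fin 3 → Oct} (h : w (ix hj) = 1) (hw : ∀ i, nq (w i) ≤ 1)
    {i : ℕ} (hi : i < j) (h1 : nq (w ⟨i, hi.trans (Nat.lt_succ_of_le hj)⟩) = 1) :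
    pt w (ix hj) h ∈ Dj i := by
  intro l hl
  have hn : 0 < ns w := (zero_lt_one).trans_le (one_le_ns h)
  rw [dgN_of_lt (Nat.lt_succ_of_le hl), dgN_of_lt (hi.trans (Nat.lt_succ_of_le hj))]
  change xi _ (npr w) ≤ xi _ (npr w)
  rw [xi_npr, xi_npr]
  refine div_le_div_of_nonneg_right ?_ hn.le
  rw [h1]
  exact hw _

/-- the index `i < j` -/
abbrev iy (hj : j ≤ 2) (i : Fin j) : Fin 3 := ⟨i.1, i.2.trans (Nat.lt_succ_of_le hj)⟩

/-- coordinates on the cell -/
noncomputable def phj (hj : j ≤ 2) (P : ↥CaP2) (l : Fin (8 * j)) : ℝ :=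
  bo (ch (ix hj) P.1 (iy hj (finProdFinEquiv.symm l).2)) (finProdFinEquiv.symm l).1

/-- the octonionic coordinates of a point of the cube -/
noncomputable def qc (y : Fin (8 * j) → ℝ) (i : Fin j) : Oct :=
  boI fun c => y (finProdFinEquiv (c, i))

/-- all coordinates -/
noncomputable def qv (y : Fin (8 * j) → ℝ) : Fin 3 → Oct :=
  fun i => if h : i.1 < j then qc y ⟨i.1, h⟩ else 0

theorem qv_of (y : Fin (8 * j) → ℝ) (i : Fin j) : qv y (iy hj i) = qc y i := dif_pos i.2

theorem continuous_qc (i : Fin j) : Continuous fun y : Fin (8 * j) → ℝ => qc y i :=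
  continuous_boI.comp (by fun_prop)

theorem continuous_qv : Continuous fun y : Fin (8 * j) → ℝ => qv y := by
  refine continuous_pi fun i => ?_
  unfold qv
  split_ifs with h
  · exact continuous_qc _
  · exact continuous_const

theorem nq_qv_le {y : Fin (8 * j) → ℝ} (hy : ∀ i, y i ∈ Icc (0 : ℝ) 1) (i : Fin 3) :
    nq (qv y i) ≤ 1 := by
  unfold qv
  split_ifs with h
  · exact nq_boI_le fun c => hy _
  · rw [nq_zero]; exact zero_le_one

theorem nq_wv_le {c : ℝ} (hc : c ∈ Icc (0 : ℝ) 1) (l : Fin 3)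
    {w : Fin 3 → Oct} (hw : ∀ i, nq (w i) ≤ 1) (i : Fin 3) :
    nq (wv c l w i) ≤ 1 := by
  unfold wv
  split_ifs
  · exact hw i
  · rw [nq_one]
  · rw [nq_smul]
    exact mul_le_one₀ (pow_le_one₀ hc.1 hc.2) (nq_nonneg _) (hw i)

/-- **The polydiscs are handles.** -/
noncomputable def cellCa : Cell ↥CaP2 (8 * j) (Dj j) (Dj j ∩ {P | ∃ i < j, P ∈ Dj i}) where
  φ := phj hj
  ψ y := pt (wv 0 (ix hj) (qv y)) (ix hj) (wv_self _ _)
  K p := pt (wv (1 - p.2) (ix hj) (ch (ix hj) p.1.1)) (ix hj) (wv_self _ _)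
  φ_cont := by
    refine continuousOn_pi.2 fun l => ?_
    have h1 : ContinuousOn (fun P : ↥CaP2 => ch (ix hj) P.1) (Dj j) :=
      (continuousOn_ch _).comp continuous_subtype_val.continuousOn fun P hP => dg_pos hj hP
    have h2 := (continuous_apply (iy hj (finProdFinEquiv.symm l).2)).comp_continuousOn h1
    exact (continuous_apply _).comp_continuousOn (continuous_bo.comp_continuousOn h2)
  φ_mem P hP l := bo_mem (nq_ch_le hj hP _) _
  φ_bd := by
    rintro P ⟨hP, i, hi, hPi⟩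
    have h := dg_pos hj hP
    have him : i ≤ 2 := hi.le.trans hj
    have h1 : xi (iy hj ⟨i, hi⟩) P.1 = xi (ix hj) P.1 :=
      le_antisymm (dg_le_of_mem hj hP _) (dg_le_of_mem him hPi (ix hj))
    have h2 : nq (ch (ix hj) P.1 (iy hj ⟨i, hi⟩)) = 1 := by
      rw [nq_ch P.2 h (iy hj ⟨i, hi⟩), h1, div_self h.ne']
    obtain ⟨c, hc⟩ := bo_bd h2
    refine ⟨finProdFinEquiv (c, ⟨i, hi⟩), ?_⟩
    simpa only [phj, Equiv.symm_apply_apply] using hc
  ψ_cont := by
    refine Continuous.continuousOn ?_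
    refine Continuous.subtype_mk ?_ _
    have h1 : Continuous fun y : Fin (8 * j) → ℝ => wv 0 (ix hj) (qv y) :=
      (continuous_wv (ix hj)).comp (continuous_const.prodMk continuous_qv)
    exact continuousOn_npr.comp_continuous h1 fun y =>
      (zero_lt_one).trans_le (one_le_ns (wv_self _ _))
  ψ_mem y hy := pt_mem hj _ fun i => nq_wv_le ⟨le_rfl, zero_le_one⟩ _ (nq_qv_le hy) i
  ψ_bd y hy hb := by
    have hw : ∀ i, nq (wv 0 (ix hj) (qv y) i) ≤ 1 := fun i =>
      nq_wv_le ⟨le_rfl, zero_le_one⟩ _ (nq_qv_le hy) i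
    refine ⟨pt_mem hj _ hw, ?_⟩
    obtain ⟨l, hl⟩ := hb
    obtain ⟨⟨c, i⟩, rfl⟩ := finProdFinEquiv.surjective l
    refine ⟨i.1, i.2, pt_bd hj _ hw i.2 ?_⟩
    have h1 : wv 0 (ix hj) (qv y) (iy hj i) = qc y i := by
      rw [wv_lt (by exact i.2), qv_of hj]
    change nq (wv 0 (ix hj) (qv y) (iy hj i)) = 1
    rw [h1]
    exact nq_boI_bd (fun c => hy _) ⟨c, hl⟩
  φψ y hy := by
    funext l
    obtain ⟨⟨c, i⟩, rfl⟩ := finProdFinEquiv.surjective l
    rw [phj, Equiv.symm_apply_apply]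
    change bo (ch (ix hj) (npr (wv 0 (ix hj) (qv y))) (iy hj i)) c = _
    rw [ch_npr (wv_self _ _), wv_lt (by exact i.2), qv_of hj, qc, bo_boI]
  K_cont := by
    rw [continuousOn_iff_continuous_domRestrict]
    refine Continuous.subtype_mk ?_ _
    have h1 : ContinuousOn (fun P : ↥CaP2 => ch (ix hj) P.1) (Dj j) :=
      (continuousOn_ch _).comp continuous_subtype_val.continuousOn fun P hP => dg_pos hj hP
    have h2 : ContinuousOn (fun p : ↥CaP2 × ℝ => wv (1 - p.2) (ix hj) (ch (ix hj) p.1.1))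
        (Dj j ×ˢ Icc (0:ℝ) 1) := by
      refine (continuous_wv (ix hj)).comp_continuousOn (ContinuousOn.prodMk (by fun_prop) ?_)
      exact h1.comp continuousOn_fst fun p hp => hp.1
    have h3 := continuousOn_npr.comp h2 fun p _ =>
      (zero_lt_one).trans_le (one_le_ns (wv_self (ix hj) _))
    exact continuousOn_iff_continuous_domRestrict.1 h3
  K_mem P hP s hs := pt_mem hj _ fun i =>
    nq_wv_le ⟨by linarith [hs.2], by linarith [hs.1]⟩ _ (nq_ch_le hj hP) i
  K_bd := by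
    rintro P ⟨hP, i, hi, hPi⟩ s hs
    have hw : ∀ l, nq (wv (1 - s) (ix hj) (ch (ix hj) P.1) l) ≤ 1 := fun l =>
      nq_wv_le ⟨by linarith [hs.2], by linarith [hs.1]⟩ _ (nq_ch_le hj hP) l
    refine ⟨pt_mem hj _ hw, i, hi, pt_bd hj _ hw hi ?_⟩
    have h := dg_pos hj hP
    have him : i ≤ 2 := hi.le.trans hj
    have h1 : xi (iy hj ⟨i, hi⟩) P.1 = xi (ix hj) P.1 :=
      le_antisymm (dg_le_of_mem hj hP _) (dg_le_of_mem him hPi (ix hj))
    have h2 : nq (ch (ix hj) P.1 (iy hj ⟨i, hi⟩)) = 1 := by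
      rw [nq_ch P.2 h (iy hj ⟨i, hi⟩), h1, div_self h.ne']
    rw [wv_lt (by exact hi)]
    exact h2
  K_zero P hP := by
    refine Subtype.ext ?_
    have h := dg_pos hj hP
    have h1 : wv (1 - 0) (ix hj) (ch (ix hj) P.1) = ch (ix hj) P.1 := by
      funext i
      rcases lt_trichotomy i (ix hj) with h2 | h2 | h2
      · rw [wv_lt h2]
      · rw [h2, wv_self, ch_self P.2 h]
      · rw [wv_gt h2, sub_zero, one_smul]
    change npr (wv (1 - 0) (ix hj) (ch (ix hj) P.1)) = P.1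
    rw [h1, npr_ch P.2 h]
  K_one P hP := by
    refine Subtype.ext ?_
    change npr (wv (1 - 1) (ix hj) (ch (ix hj) P.1)) = npr (wv 0 (ix hj) (qv (phj hj P)))
    congr 1
    funext i
    rcases lt_trichotomy i (ix hj) with h2 | h2 | h2
    · rw [wv_lt h2, wv_lt h2]
      have h3 : i = iy hj ⟨i.1, h2⟩ := rfl
      rw [h3, qv_of hj, qc]
      have h4 : (fun c => phj hj P (finProdFinEquiv (c, (⟨i.1, h2⟩ : Fin j)))) =
          bo (ch (ix hj) P.1 (iy hj ⟨i.1, h2⟩)) := by
        funext c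
        rw [phj, Equiv.symm_apply_apply]
      rw [h4, boI_bo]
    · rw [h2, wv_self, wv_self]
    · rw [wv_gt h2, wv_gt h2, sub_self, zero_smul, zero_smul]

end

/-- **The handle decomposition of the Cayley plane.** -/
noncomputable def cellDecCa : CellDec ↥CaP2 8 2 where
  D := Dj
  closed := isClosed_Dj
  cov := cov_Dj
  cell _ hj := cellCa hj

end Vale.Agent.P216.H893
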