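import Vale.Agent.P216.H893.Rot
import Vale.Agent.P216.H893.BallCube

/-!
# Affine charts of the Cayley plane

`ch j A` = the coordinates `v i / v j` (`i = 0, 1, 2`) of `A = v v*`; `npr w` = the normalised
matrix `w w*`, `w j = 1` for one `j`.
-/

open Set Quaternion Topology

namespace Vale.Agent.P216.H893

open Oct

/-! ### Continuity -/

namespace Oct

theorem continuous_fst' : Continuous fun x : Oct => x.1 :=
  (continuous_fst : Continuous fun x : ℍ[ℝ] × ℍ[ℝ] => x.1)

theorem continuous_snd' : Continuous fun x : Oct => x.2 :=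
  (continuous_snd : Continuous fun x : ℍ[ℝ] × ℍ[ℝ] => x.2)

theorem continuous_omul : Continuous fun p : Oct × Oct => p.1 * p.2 := by
  have h1 : Continuous fun p : Oct × Oct => p.1.1 := continuous_fst'.comp continuous_fst
  have h2 : Continuous fun p : Oct × Oct => p.1.2 := continuous_snd'.comp continuous_fst
  have h3 : Continuous fun p : Oct × Oct => p.2.1 := continuous_fst'.comp continuous_snd
  have h4 : Continuous fun p : Oct × Oct => p.2.2 := continuous_snd'.comp continuous_snd
  exact ((h1.mul h3).sub ((continuous_star.comp h4).mul h2)).prodMk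
    ((h4.mul h1).add (h2.mul (continuous_star.comp h3)))

theorem continuous_ostar : Continuous fun x : Oct => star x :=
  (continuous_star.comp continuous_fst').prodMk continuous_snd'.neg

theorem continuous_ore : Continuous fun x : Oct => Oct.re x :=
  Quaternion.continuous_re.comp continuous_fst'

theorem continuous_ip : Continuous fun p : Oct × Oct => ip p.1 p.2 := by
  have h1 : Continuous fun p : Oct × Oct => p.1.1 := continuous_fst'.comp continuous_fst
  have h2 : Continuous fun p : Oct × Oct => p.1.2 := continuous_snd'.comp continuous_fst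
  have h3 : Continuous fun p : Oct × Oct => p.2.1 := continuous_fst'.comp continuous_snd
  have h4 : Continuous fun p : Oct × Oct => p.2.2 := continuous_snd'.comp continuous_snd
  have r := Quaternion.continuous_re
  have i := Quaternion.continuous_imI
  have j := Quaternion.continuous_imJ
  have k := Quaternion.continuous_imK
  unfold ip
  exact (((((r.comp h1).mul (r.comp h3)).add ((i.comp h1).mul (i.comp h3))).add
    ((j.comp h1).mul (j.comp h3))).add ((k.comp h1).mul (k.comp h3))).add
    (((((r.comp h2).mul (r.comp h4)).add ((i.comp h2).mul (i.comp h4))).add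
    ((j.comp h2).mul (j.comp h4))).add ((k.comp h2).mul (k.comp h4)))

theorem continuous_nq : Continuous fun x : Oct => nq x :=
  continuous_ip.comp (continuous_id.prodMk continuous_id)

end Oct

theorem continuous_xi (i : Fin 3) : Continuous fun A : OMat => xi i A :=
  continuous_ore.comp ((continuous_apply i).comp (continuous_apply i))

theorem continuous_entry (i j : Fin 3) : Continuous fun A : OMat => A i j :=
  (continuous_apply j).comp (continuous_apply i)

/-! ### The rank one equations -/

theorem diag_eq {A : OMat} (hA : A ∈ CaP2) (i : Fin 3) : A i i = xi i A • 1 :=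
  eq_smul_one (hA.1 i i)

theorem mul_entry {A : OMat} (hA : A ∈ CaP2) (i j k : Fin 3) :
    A i j * A j k = xi j A • A i k := by
  have E := eqs_of_mem hA
  have d := diag_eq hA
  have h10 : A 1 0 = star (A 0 1) := hA.1 0 1
  have h20 : A 2 0 = star (A 0 2) := hA.1 0 2
  have h21 : A 2 1 = star (A 1 2) := hA.1 1 2
  have hp' : A 1 2 * star (A 0 2) = xi 2 A • star (A 0 1) := by
    have := congrArg star E.hp
    rwa [star_omul, ostar_star, ostar_smul] at this
  have hq' : star (A 1 2) * star (A 0 1) = xi 1 A • star (A 0 2) := by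
    have := congrArg star E.hq
    rwa [star_omul, ostar_smul] at this
  have hr' : star (A 0 2) * A 0 1 = xi 0 A • star (A 1 2) := by
    have := congrArg star E.hr
    rwa [star_omul, ostar_star, ostar_smul] at this
  fin_cases i <;> fin_cases j <;> fin_cases k <;>
  simp only [Fin.zero_eta, Fin.mk_one, Fin.reduceFinMk, d, h10, h20, h21, one_smul_mul,
    mul_smul_one, mul_star_self, star_mul_self, E.hp, E.hq, E.hr, hp', hq', hr', E.np, E.nq',
    E.nr, smul_smul] <;>
  first
  | rfl
  | (congr 1; ring)

theorem nq_entry {A : OMat} (hA : A ∈ CaP2) (i j : Fin 3) : nq (A i j) = xi i A * xi j A := by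
  have h := mul_entry hA i j i
  rw [hA.1 i j, mul_star_self, diag_eq hA i, smul_smul] at h
  rw [smul_one_inj h, mul_comm]

theorem xi_nonneg {A : OMat} (hA : A ∈ CaP2) (i : Fin 3) : 0 ≤ xi i A := by
  obtain ⟨h0, h1, h2⟩ := (eqs_of_mem hA).nonneg
  fin_cases i <;> assumption

theorem sum_xi {A : OMat} (hA : A ∈ CaP2) : ∑ i, xi i A = 1 := by
  rw [Fin.sum_univ_three]
  exact (eqs_of_mem hA).tr

/-! ### The charts -/

/-- squared norm of a vector -/
noncomputable def ns (w : Fin 3 → Oct) : ℝ := ∑ i, nq (w i)

/-- `w w* / |w|²` -/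
noncomputable def npr (w : Fin 3 → Oct) : OMat := fun i j => (ns w)⁻¹ • (w i * star (w j))

/-- the coordinates `v i / v j` -/
noncomputable def ch (j : Fin 3) (A : OMat) : Fin 3 → Oct := fun i => (xi j A)⁻¹ • A i j

theorem ns_nonneg (w : Fin 3 → Oct) : 0 ≤ ns w := Finset.sum_nonneg fun _ _ => nq_nonneg _

theorem one_le_ns {w : Fin 3 → Oct} {j : Fin 3} (h : w j = 1) : 1 ≤ ns w := by
  have h1 : nq (w j) ≤ ns w :=
    Finset.single_le_sum (f := fun i => nq (w i)) (fun _ _ => nq_nonneg _) (Finset.mem_univ j)
  rwa [h, nq_one] at h1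

theorem continuous_ns : Continuous ns :=
  continuous_finsetSum _ fun i _ => continuous_nq.comp (continuous_apply i)

theorem triple {w : Fin 3 → Oct} {j : Fin 3} (h : w j = 1) (i l k : Fin 3) :
    (w i * star (w l)) * (w l * star (w k)) = nq (w l) • (w i * star (w k)) := by
  by_cases hl : l = j
  · rw [hl, h, ostar_one, omul_one, one_omul, nq_one, one_smul]
  by_cases hi : i = j
  · rw [hi, h, one_omul, one_omul, star_mul_mul]
  by_cases hk : k = j
  · rw [hk, h, ostar_one, omul_one, omul_one, mul_star_mul']
  by_cases hil : i = l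
  · rw [hil, mul_star_self, one_smul_mul]
  by_cases hlk : l = k
  · rw [hlk, mul_star_self, mul_smul_one]
  have hik : i = k := by
    fin_cases i <;> fin_cases l <;> fin_cases k <;> fin_cases j <;> simp_all
  rw [hik]
  have := mul_star_self (w k * star (w l))
  rw [star_omul, ostar_star, nq_mul, nq_star] at this
  rw [this, mul_star_self, smul_smul, mul_comm]

theorem npr_mem {w : Fin 3 → Oct} {j : Fin 3} (h : w j = 1) : npr w ∈ CaP2 := by
  have hn : 0 < ns w := zero_lt_one.trans_le (one_le_ns h)
  refine ⟨fun i k => ?_, ?_, ?_⟩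
  · rw [npr, npr, ostar_smul, star_omul, ostar_star]
  · funext i k
    simp only [omm, npr, smul_omul, omul_smul, triple h, smul_smul]
    rw [← Finset.sum_smul, ← Finset.mul_sum, ← Finset.mul_sum]
    congr 1
    change (ns w)⁻¹ * ((ns w)⁻¹ * ns w) = _
    field_simp
  · simp only [npr, mul_star_self, smul_smul]
    rw [← Finset.sum_smul, ← Finset.mul_sum]
    change ((ns w)⁻¹ * ns w) • (1 : Oct) = 1
    rw [inv_mul_cancel₀ hn.ne', one_smul]

theorem xi_npr (w : Fin 3 → Oct) (i : Fin 3) : xi i (npr w) = nq (w i) / ns w := by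
  rw [xi, npr, mul_star_self, smul_smul]
  simp only [Oct.re, smul_fst, one_fst, Quaternion.re_smul, Quaternion.re_one, smul_eq_mul,
    mul_one]
  rw [div_eq_inv_mul]

theorem ch_self {A : OMat} (hA : A ∈ CaP2) {j : Fin 3} (h : 0 < xi j A) : ch j A j = 1 := by
  rw [ch, diag_eq hA, smul_smul, inv_mul_cancel₀ h.ne', one_smul]

theorem nq_ch {A : OMat} (hA : A ∈ CaP2) {j : Fin 3} (h : 0 < xi j A) (i : Fin 3) :
    nq (ch j A i) = xi i A / xi j A := by
  rw [ch, nq_smul, nq_entry hA]
  field_simp

theorem ns_ch {A : OMat} (hA : A ∈ CaP2) {j : Fin 3} (h : 0 < xi j A) :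
    ns (ch j A) = (xi j A)⁻¹ := by
  simp only [ns, nq_ch hA h]
  rw [← Finset.sum_div, sum_xi hA, one_div]

theorem npr_ch {A : OMat} (hA : A ∈ CaP2) {j : Fin 3} (h : 0 < xi j A) : npr (ch j A) = A := by
  funext i k
  rw [npr, ns_ch hA h, inv_inv, ch, ch, ostar_smul, smul_omul, omul_smul, ← hA.1 k j,
    mul_entry hA, smul_smul, smul_smul, smul_smul]
  have : xi j A * (xi j A)⁻¹ * (xi j A)⁻¹ * xi j A = 1 := by field_simp
  rw [this, one_smul]

theorem ch_npr {w : Fin 3 → Oct} {j : Fin 3} (h : w j = 1) : ch j (npr w) = w := by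
  have hn : 0 < ns w := zero_lt_one.trans_le (one_le_ns h)
  funext i
  rw [ch, xi_npr, h, nq_one, npr, h, ostar_one, omul_one, smul_smul, one_div, inv_inv,
    mul_inv_cancel₀ hn.ne', one_smul]

theorem continuousOn_ch (j : Fin 3) : ContinuousOn (ch j) {A | 0 < xi j A} := by
  refine continuousOn_pi.2 fun i => ?_
  exact ((continuous_xi j).continuousOn.inv₀ fun A hA => (ne_of_gt hA)).smul
    (continuous_entry i j).continuousOn

theorem continuousOn_npr : ContinuousOn npr {w | 0 < ns w} := by
  have h1 : ContinuousOn (fun w : Fin 3 → Oct => (ns w)⁻¹) {w | 0 < ns w} :=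
    continuous_ns.continuousOn.inv₀ fun w hw => by
      have : 0 < ns w := hw
      exact this.ne'
  have h2 : ∀ i j : Fin 3, Continuous fun w : Fin 3 → Oct => w i * star (w j) := by
    intro i j
    have h3 : Continuous fun w : Fin 3 → Oct => ((w i, star (w j)) : Oct × Oct) :=
      (continuous_apply i).prodMk (continuous_ostar.comp (continuous_apply j))
    exact continuous_omul.comp h3
  exact continuousOn_pi.2 fun i => continuousOn_pi.2 fun j => h1.smul (h2 i j).continuousOn

end Vale.Agent.P216.H893
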