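import Vale.Agent.P216.H893.CaCell
import Vale.Agent.P216.H133C.Frames

/-!
# P216-C : isometric frames over the handles of the Cayley plane

`G2 b` = product of two rotations, which carries `b` to the point `v = (0, 0, 1)`.
-/

open Set Quaternion

namespace Vale.Agent.P216.H893

open Oct H133C

/-! ### The trace form -/

/-- the scalar product of matrices -/
noncomputable def tf (A B : OMat) : ℝ := ∑ i, ∑ j, ip (A i j) (B i j)

theorem tf_comm (A B : OMat) : tf A B = tf B A := by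
  simp only [tf, ip_comm]

theorem tf_self {A : OMat} (hA : A ∈ CaP2) : tf A A = 1 := by
  have h : ∀ i j, ip (A i j) (A i j) = xi i A * xi j A := fun i j => nq_entry hA i j
  simp only [tf, h]
  rw [← Finset.sum_mul_sum, sum_xi hA, one_mul]

theorem sum_nq_sub (A B : OMat) :
    ∑ i, ∑ j, nq (A i j - B i j) = tf A A - 2 * tf A B + tf B B := by
  simp only [tf, nq_sub, Finset.sum_add_distrib, Finset.sum_sub_distrib, ← Finset.mul_sum]
  rfl

theorem tf_le {A B : OMat} (hA : A ∈ CaP2) (hB : B ∈ CaP2) : tf A B ≤ 1 := by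
  have h := sum_nq_sub A B
  rw [tf_self hA, tf_self hB] at h
  have h2 : 0 ≤ ∑ i, ∑ j, nq (A i j - B i j) :=
    Finset.sum_nonneg fun _ _ => Finset.sum_nonneg fun _ _ => nq_nonneg _
  linarith

theorem tf_eq_one {A B : OMat} (hA : A ∈ CaP2) (hB : B ∈ CaP2) : tf A B = 1 ↔ A = B := by
  constructor
  · intro h1
    have h := sum_nq_sub A B
    rw [tf_self hA, tf_self hB, h1] at h
    have h2 : ∑ i, ∑ j, nq (A i j - B i j) = 0 := by rw [h]; ring
    rw [Finset.sum_eq_zero_iff_of_nonneg fun _ _ => Finset.sum_nonneg fun _ _ => nq_nonneg _] at h2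
    funext i j
    have h3 := h2 i (Finset.mem_univ i)
    rw [Finset.sum_eq_zero_iff_of_nonneg fun _ _ => nq_nonneg _] at h3
    exact sub_eq_zero.1 ((nq_eq_zero _).1 (h3 j (Finset.mem_univ j)))
  · rintro rfl
    exact tf_self hA

theorem continuous_tf : Continuous fun p : OMat × OMat => tf p.1 p.2 := by
  unfold tf
  refine continuous_finsetSum _ fun i _ => continuous_finsetSum _ fun j _ => ?_
  have h3 : Continuous fun p : OMat × OMat => ((p.1 i j, p.2 i j) : Oct × Oct) :=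
    ((continuous_entry i j).comp continuous_fst).prodMk
      ((continuous_entry i j).comp continuous_snd)
  exact continuous_ip.comp h3

theorem tf_eq {A B : OMat} (hA : A ∈ CaP2) (hB : B ∈ CaP2) :
    tf A B = xi 0 A * xi 0 B + xi 1 A * xi 1 B + xi 2 A * xi 2 B + 2 * ip (A 0 1) (B 0 1) +
      2 * ip (A 0 2) (B 0 2) + 2 * ip (A 1 2) (B 1 2) := by
  have d : ∀ i, ip (A i i) (B i i) = xi i A * xi i B := fun i => by
    rw [diag_eq hA i, diag_eq hB i, ip_smul_left, ip_smul_right]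
    have : ip (1 : Oct) 1 = 1 := nq_one
    rw [this, mul_one]
  have s : ∀ i j, ip (A j i) (B j i) = ip (A i j) (B i j) := fun i j => by
    rw [hA.1 i j, hB.1 i j, ip_star]
  simp only [tf, Fin.sum_univ_three, d]
  rw [s 0 1, s 0 2, s 1 2]
  ring

/-! ### Permutations of the coordinates -/

/-- simultaneous permutation of rows and columns -/
def pm (σ : Equiv.Perm (Fin 3)) (A : OMat) : OMat := fun i j => A (σ i) (σ j)

theorem pm_mem (σ : Equiv.Perm (Fin 3)) {A : OMat} (hA : A ∈ CaP2) : pm σ A ∈ CaP2 := by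
  refine ⟨fun i j => hA.1 _ _, ?_, ?_⟩
  · funext i j
    have h := congrFun (congrFun hA.2.1 (σ i)) (σ j)
    change ∑ l, A (σ i) (σ l) * A (σ l) (σ j) = A (σ i) (σ j)
    rw [← h]
    exact Equiv.sum_comp σ fun l => A (σ i) l * A l (σ j)
  · exact (Equiv.sum_comp σ fun l => A l l).trans hA.2.2

theorem pm_pm (σ : Equiv.Perm (Fin 3)) (A : OMat) : pm σ (pm σ.symm A) = A := by
  funext i j
  simp [pm]

theorem pm_pm' (σ : Equiv.Perm (Fin 3)) (A : OMat) : pm σ.symm (pm σ A) = A := by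
  funext i j
  simp [pm]

theorem continuous_pm (σ : Equiv.Perm (Fin 3)) : Continuous (pm σ) :=
  continuous_pi fun i => continuous_pi fun j => continuous_entry (σ i) (σ j)

theorem tf_pm (σ : Equiv.Perm (Fin 3)) (A B : OMat) : tf (pm σ A) (pm σ B) = tf A B := by
  simp only [tf, pm]
  rw [Equiv.sum_comp σ fun i => ∑ j, ip (A i (σ j)) (B i (σ j))]
  exact Finset.sum_congr rfl fun i _ => Equiv.sum_comp σ fun j => ip (A i j) (B i j)

theorem xi_pm (σ : Equiv.Perm (Fin 3)) (A : OMat) (i : Fin 3) : xi i (pm σ A) = xi (σ i) A := rfl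

/-! ### Rotations in the planes `(0,2)` and `(1,2)` -/

theorem continuous_rot : Continuous fun q : (Oct × ℝ) × OMat => rot q.1.1 q.1.2 q.2 := by
  have hp : Continuous fun q : (Oct × ℝ) × OMat => q.1.1 := continuous_fst.comp continuous_fst
  have hc : Continuous fun q : (Oct × ℝ) × OMat => q.1.2 := continuous_snd.comp continuous_fst
  have hA : Continuous fun q : (Oct × ℝ) × OMat => q.2 := continuous_snd
  have x0 := (continuous_xi 0).comp hA
  have x1 := (continuous_xi 1).comp hA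
  have x2 := (continuous_xi 2).comp hA
  have e01 := (continuous_entry 0 1).comp hA
  have e02 := (continuous_entry 0 2).comp hA
  have e12 := (continuous_entry 1 2).comp hA
  have hnq := continuous_nq.comp hp
  have hip : Continuous fun q : (Oct × ℝ) × OMat => ip q.1.1 (q.2 0 2) :=
    continuous_ip.comp (hp.prodMk e02)
  have hone : ∀ {f : (Oct × ℝ) × OMat → ℝ}, Continuous f →
      Continuous fun q => f q • (1 : Oct) := fun hf => hf.smul continuous_const
  have hP : Continuous fun q : (Oct × ℝ) × OMat => q.1.2 • q.2 0 1 - q.1.1 * star (q.2 1 2) :=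
    (hc.smul e01).sub (continuous_omul.comp (hp.prodMk (continuous_ostar.comp e12)))
  have hQ : Continuous fun q : (Oct × ℝ) × OMat =>
      q.2 0 2 + (q.1.2 * (xi 0 q.2 - xi 2 q.2) - 2 * ip q.1.1 (q.2 0 2)) • q.1.1 :=
    e02.add (((hc.mul (x0.sub x2)).sub (continuous_const.mul hip)).smul hp)
  have hR : Continuous fun q : (Oct × ℝ) × OMat => star (q.2 0 1) * q.1.1 + q.1.2 • q.2 1 2 :=
    (continuous_omul.comp ((continuous_ostar.comp e01).prodMk hp)).add (hc.smul e12)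
  have h0 : Continuous fun q : (Oct × ℝ) × OMat =>
      q.1.2 ^ 2 * xi 0 q.2 + nq q.1.1 * xi 2 q.2 - 2 * q.1.2 * ip q.1.1 (q.2 0 2) :=
    (((hc.pow 2).mul x0).add (hnq.mul x2)).sub ((continuous_const.mul hc).mul hip)
  have h2 : Continuous fun q : (Oct × ℝ) × OMat =>
      nq q.1.1 * xi 0 q.2 + q.1.2 ^ 2 * xi 2 q.2 + 2 * q.1.2 * ip q.1.1 (q.2 0 2) :=
    ((hnq.mul x0).add ((hc.pow 2).mul x2)).add ((continuous_const.mul hc).mul hip)
  refine continuous_pi fun i => continuous_pi fun j => ?_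
  fin_cases i <;> fin_cases j
  · exact hone h0
  · exact hP
  · exact hQ
  · exact continuous_ostar.comp hP
  · exact hone x1
  · exact hR
  · exact continuous_ostar.comp hQ
  · exact continuous_ostar.comp hR
  · exact hone h2

/-- the transposition of `0` and `1` -/
def s01 : Equiv.Perm (Fin 3) := Equiv.swap 0 1

/-- the rotation in the plane `(1,2)` -/
noncomputable def rot' (p : Oct) (c : ℝ) (A : OMat) : OMat := pm s01 (rot p c (pm s01 A))

theorem s01_symm : s01.symm = s01 := Equiv.symm_swap _ _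

theorem pm_s01 (A : OMat) : pm s01 (pm s01 A) = A := by
  have := pm_pm s01 A
  rwa [s01_symm] at this

theorem rot'_mem {A : OMat} (hA : A ∈ CaP2) {p : Oct} {c : ℝ} (hc : c ^ 2 + nq p = 1) :
    rot' p c A ∈ CaP2 := pm_mem _ (rot_mem (pm_mem _ hA) hc)

theorem rot'_rot' {A : OMat} (hA : A ∈ CaP2) {p : Oct} {c : ℝ} (hc : c ^ 2 + nq p = 1) :
    rot' (-p) c (rot' p c A) = A := by
  rw [rot', rot', pm_s01, rot_rot (pm_mem _ hA) hc, pm_s01]

theorem rot'_rot'' {A : OMat} (hA : A ∈ CaP2) {p : Oct} {c : ℝ} (hc : c ^ 2 + nq p = 1) :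
    rot' p c (rot' (-p) c A) = A := by
  rw [rot', rot', pm_s01, rot_rot' (pm_mem _ hA) hc, pm_s01]

theorem continuous_rot' : Continuous fun q : (Oct × ℝ) × OMat => rot' q.1.1 q.1.2 q.2 :=
  (continuous_pm _).comp (continuous_rot.comp
    (continuous_fst.prodMk ((continuous_pm _).comp continuous_snd)))

/-! ### The frame -/

/-- `|v₂|` -/
noncomputable def tt (b : OMat) : ℝ := √(xi 2 b)

/-- `√(|v₂|² + |v₀|²)` -/
noncomputable def t1 (b : OMat) : ℝ := √(xi 2 b + xi 0 b)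

/-- first parameter -/
noncomputable def p1 (b : OMat) : Oct := (tt b * t1 b)⁻¹ • b 0 2

/-- second parameter -/
noncomputable def p2 (b : OMat) : Oct := (tt b)⁻¹ • b 1 2

/-- the frame -/
noncomputable def G2 (b a : OMat) : OMat := rot' (p2 b) (t1 b) (rot (p1 b) (tt b / t1 b) a)

/-- its inverse -/
noncomputable def G2' (b a : OMat) : OMat := rot (-p1 b) (tt b / t1 b) (rot' (-p2 b) (t1 b) a)

section

variable {b : OMat} (hb : b ∈ CaP2) (h : 0 < xi 2 b)

include h in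
theorem tt_pos : 0 < tt b := Real.sqrt_pos.2 h

include hb h in
theorem t1_pos : 0 < t1 b := Real.sqrt_pos.2 (add_pos_of_pos_of_nonneg h (xi_nonneg hb 0))

include h in
theorem tt_sq : tt b ^ 2 = xi 2 b := Real.sq_sqrt h.le

include hb h in
theorem t1_sq : t1 b ^ 2 = xi 2 b + xi 0 b :=
  Real.sq_sqrt (add_pos_of_pos_of_nonneg h (xi_nonneg hb 0)).le

include hb h in
theorem par1 : (tt b / t1 b) ^ 2 + nq (p1 b) = 1 := by
  have h1 := t1_pos hb h
  have h2 := tt_pos h
  rw [p1, nq_smul, nq_entry hb, inv_pow, mul_pow, div_pow, tt_sq h, t1_sq hb h]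
  have h3 : xi 2 b + xi 0 b ≠ 0 := (add_pos_of_pos_of_nonneg h (xi_nonneg hb 0)).ne'
  field_simp

include hb h in
theorem par2 : t1 b ^ 2 + nq (p2 b) = 1 := by
  have h2 := tt_pos h
  rw [p2, nq_smul, nq_entry hb, inv_pow, tt_sq h, t1_sq hb h]
  have h4 := (eqs_of_mem hb).tr
  field_simp
  linarith

include hb h in
theorem G2_mem {a : OMat} (ha : a ∈ CaP2) : G2 b a ∈ CaP2 :=
  rot'_mem (rot_mem ha (par1 hb h)) (par2 hb h)

include hb h in
theorem G2'_mem {a : OMat} (ha : a ∈ CaP2) : G2' b a ∈ CaP2 := by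
  have e1 : t1 b ^ 2 + nq (-p2 b) = 1 := by rw [nq_neg]; exact par2 hb h
  have e2 : (tt b / t1 b) ^ 2 + nq (-p1 b) = 1 := by rw [nq_neg]; exact par1 hb h
  exact rot_mem (rot'_mem ha e1) e2

include hb h in
theorem G2'_G2 {a : OMat} (ha : a ∈ CaP2) : G2' b (G2 b a) = a := by
  rw [G2, G2', rot'_rot' (rot_mem ha (par1 hb h)) (par2 hb h), rot_rot ha (par1 hb h)]

include hb h in
theorem G2_G2' {a : OMat} (ha : a ∈ CaP2) : G2 b (G2' b a) = a := by
  have e1 : t1 b ^ 2 + nq (-p2 b) = 1 := by rw [nq_neg]; exact par2 hb h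
  rw [G2, G2', rot_rot' (rot'_mem ha e1) (par1 hb h), rot'_rot'' ha (par2 hb h)]

include hb h in
theorem xi_G2 {a : OMat} (ha : a ∈ CaP2) : xi 2 (G2 b a) = tf a b := by
  have h1 := t1_pos hb h
  have h2 := tt_pos h
  have e2 : s01 2 = 2 := rfl
  have e0 : s01 0 = 1 := rfl
  rw [tf_eq ha hb, G2, rot', xi_pm, e2, rot, xi_hm2, xi_pm, xi_pm, e2, e0]
  change nq (p2 b) * xi 1 (rot (p1 b) (tt b / t1 b) a) +
    t1 b ^ 2 * xi 2 (rot (p1 b) (tt b / t1 b) a) +
    2 * t1 b * ip (p2 b) (rot (p1 b) (tt b / t1 b) a 1 2) = _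
  rw [rot, xi_hm1, xi_hm2, hm12, ip_add_right, ip_smul_right]
  have k1 : t1 b ^ 2 * nq (p1 b) = xi 0 b := by
    rw [p1, nq_smul, nq_entry hb, inv_pow, mul_pow, tt_sq h]
    field_simp
  have k2 : nq (p2 b) = xi 1 b := by
    rw [p2, nq_smul, nq_entry hb, inv_pow, tt_sq h]
    field_simp
  have k3 : t1 b * tt b * ip (p1 b) (a 0 2) = ip (a 0 2) (b 0 2) := by
    rw [p1, ip_smul_left, ip_comm]
    field_simp
  have k4 : tt b * ip (p2 b) (a 1 2) = ip (a 1 2) (b 1 2) := by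
    rw [p2, ip_smul_left, ip_comm]
    field_simp
  have k5 : t1 b * ip (p2 b) (star (a 0 1) * p1 b) = ip (a 0 1) (b 0 1) := by
    rw [p2, p1, ip_smul_left, omul_smul, ip_smul_right, ← ip_mul_left, ip_mul_right,
      (eqs_of_mem hb).hp, ip_smul_right, ← tt_sq h]
    field_simp
  have k6 : t1 b ^ 2 * (tt b / t1 b) ^ 2 = xi 2 b := by
    rw [← tt_sq h]
    field_simp
  have k7 : t1 b ^ 2 * (2 * (tt b / t1 b) * ip (p1 b) (a 0 2)) = 2 * ip (a 0 2) (b 0 2) := by
    rw [← k3]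
    field_simp
  have k8 : 2 * t1 b * (tt b / t1 b * ip (p2 b) (a 1 2)) = 2 * ip (a 1 2) (b 1 2) := by
    rw [← k4]
    field_simp
  linear_combination xi 1 a * k2 + xi 0 a * k1 + xi 2 a * k6 + k7 + 2 * k5 + k8

end

/-! ### Continuity of the frame -/

/-- the domain of the frame -/
def dom : Set (OMat × OMat) := {q | q.1 ∈ CaP2 ∧ 0 < xi 2 q.1}

theorem cont_tt : Continuous tt := (continuous_xi 2).sqrt

theorem cont_t1 : Continuous t1 := ((continuous_xi 2).add (continuous_xi 0)).sqrt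

theorem cont_p1 : ContinuousOn (fun q : OMat × OMat => p1 q.1) dom := by
  have h1 : Continuous fun q : OMat × OMat => tt q.1 * t1 q.1 :=
    (cont_tt.comp continuous_fst).mul (cont_t1.comp continuous_fst)
  have h2 : ContinuousOn (fun q : OMat × OMat => (tt q.1 * t1 q.1)⁻¹) dom :=
    h1.continuousOn.inv₀ fun q hq => (mul_pos (tt_pos hq.2) (t1_pos hq.1 hq.2)).ne'
  have h3 : Continuous fun q : OMat × OMat => q.1 0 2 := (continuous_entry 0 2).comp continuous_fst
  exact h2.smul h3.continuousOn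

theorem cont_p2 : ContinuousOn (fun q : OMat × OMat => p2 q.1) dom := by
  have h1 : Continuous fun q : OMat × OMat => tt q.1 := cont_tt.comp continuous_fst
  have h2 : ContinuousOn (fun q : OMat × OMat => (tt q.1)⁻¹) dom :=
    h1.continuousOn.inv₀ fun q hq => (tt_pos hq.2).ne'
  have h3 : Continuous fun q : OMat × OMat => q.1 1 2 := (continuous_entry 1 2).comp continuous_fst
  exact h2.smul h3.continuousOn

theorem cont_c : ContinuousOn (fun q : OMat × OMat => tt q.1 / t1 q.1) dom := by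
  have h1 : Continuous fun q : OMat × OMat => tt q.1 := cont_tt.comp continuous_fst
  have h2 : Continuous fun q : OMat × OMat => t1 q.1 := cont_t1.comp continuous_fst
  exact h1.continuousOn.div h2.continuousOn fun q hq => (t1_pos hq.1 hq.2).ne'

theorem cont_t1' : ContinuousOn (fun q : OMat × OMat => t1 q.1) dom :=
  (cont_t1.comp continuous_fst).continuousOn

attribute [local irreducible] rot rot' p1 p2 t1 tt pm

theorem cont_G2 : ContinuousOn (fun q : OMat × OMat => G2 q.1 q.2) dom := by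
  have h0 : ContinuousOn (fun q : OMat × OMat =>
      (((p1 q.1, tt q.1 / t1 q.1), q.2) : (Oct × ℝ) × OMat)) dom :=
    (cont_p1.prodMk cont_c).prodMk continuousOn_snd
  have h1 : ContinuousOn (fun q : OMat × OMat => rot (p1 q.1) (tt q.1 / t1 q.1) q.2) dom :=
    continuous_rot.comp_continuousOn h0
  have h2 : ContinuousOn (fun q : OMat × OMat =>
      (((p2 q.1, t1 q.1), rot (p1 q.1) (tt q.1 / t1 q.1) q.2) : (Oct × ℝ) × OMat)) dom :=
    (cont_p2.prodMk cont_t1').prodMk h1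
  exact continuous_rot'.comp_continuousOn h2

theorem cont_G2' : ContinuousOn (fun q : OMat × OMat => G2' q.1 q.2) dom := by
  have h0 : ContinuousOn (fun q : OMat × OMat =>
      (((-p2 q.1, t1 q.1), q.2) : (Oct × ℝ) × OMat)) dom :=
    (cont_p2.neg.prodMk cont_t1').prodMk continuousOn_snd
  have h1 : ContinuousOn (fun q : OMat × OMat => rot' (-p2 q.1) (t1 q.1) q.2) dom :=
    continuous_rot'.comp_continuousOn h0
  have h2 : ContinuousOn (fun q : OMat × OMat =>
      (((-p1 q.1, tt q.1 / t1 q.1), rot' (-p2 q.1) (t1 q.1) q.2) : (Oct × ℝ) × OMat)) dom :=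
    (cont_p1.neg.prodMk cont_c).prodMk h1
  exact continuous_rot.comp_continuousOn h2

/-! ### The frames over the three handles -/

/-- the transposition of `j` and `2` -/
def sg (j : ℕ) : Equiv.Perm (Fin 3) := if h : j < 3 then Equiv.swap ⟨j, h⟩ 2 else 1

theorem sg_two {j : ℕ} (hj : j ≤ 2) : sg j 2 = ix hj := by
  rw [sg, dif_pos (Nat.lt_succ_of_le hj), Equiv.swap_apply_right]

theorem xi_sg {j : ℕ} (hj : j ≤ 2) {b : ↥CaP2} (hb : b ∈ Dj j) : 0 < xi 2 (pm (sg j) b.1) := by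
  rw [xi_pm, sg_two hj]
  exact dg_pos hj hb

open Classical in
/-- frame over `D j` -/
noncomputable def Gj (j : ℕ) (q : ↥CaP2 × ↥CaP2) : ↥CaP2 :=
  if h : 0 < xi 2 (pm (sg j) q.1.1) then
    ⟨G2 (pm (sg j) q.1.1) (pm (sg j) q.2.1), G2_mem (pm_mem _ q.1.2) h (pm_mem _ q.2.2)⟩
  else q.2

open Classical in
/-- inverse frame over `D j` -/
noncomputable def Gj' (j : ℕ) (q : ↥CaP2 × ↥CaP2) : ↥CaP2 :=
  if h : 0 < xi 2 (pm (sg j) q.1.1) then
    ⟨pm (sg j).symm (G2' (pm (sg j) q.1.1) q.2.1), pm_mem _ (G2'_mem (pm_mem _ q.1.2) h q.2.2)⟩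
  else q.2

theorem Gj_val {j : ℕ} {q : ↥CaP2 × ↥CaP2} (h : 0 < xi 2 (pm (sg j) q.1.1)) :
    (Gj j q).1 = G2 (pm (sg j) q.1.1) (pm (sg j) q.2.1) := by
  rw [Gj, dif_pos h]

theorem Gj'_val {j : ℕ} {q : ↥CaP2 × ↥CaP2} (h : 0 < xi 2 (pm (sg j) q.1.1)) :
    (Gj' j q).1 = pm (sg j).symm (G2' (pm (sg j) q.1.1) q.2.1) := by
  rw [Gj', dif_pos h]

theorem cont_sub {X : Type} [TopologicalSpace X] {S : Set X} {F : X → ↥CaP2} {g : X → OMat}
    (hg : ContinuousOn g S) (h : ∀ x ∈ S, (F x).1 = g x) : ContinuousOn F S := by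
  rw [Topology.IsInducing.subtypeVal.continuousOn_iff]
  exact hg.congr h

theorem cont_Gj {j : ℕ} (hj : j ≤ 2) : ContinuousOn (Gj j) (Dj j ×ˢ univ) := by
  refine cont_sub (g := fun q => G2 (pm (sg j) q.1.1) (pm (sg j) q.2.1)) ?_ fun q hq =>
    Gj_val (xi_sg hj hq.1)
  have h1 : Continuous fun q : ↥CaP2 × ↥CaP2 =>
      ((pm (sg j) q.1.1, pm (sg j) q.2.1) : OMat × OMat) :=
    ((continuous_pm _).comp (continuous_subtype_val.comp continuous_fst)).prodMk
      ((continuous_pm _).comp (continuous_subtype_val.comp continuous_snd))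
  have h2 : MapsTo (fun q : ↥CaP2 × ↥CaP2 => ((pm (sg j) q.1.1, pm (sg j) q.2.1) : OMat × OMat))
      (Dj j ×ˢ univ) dom := fun q hq => ⟨pm_mem _ q.1.2, xi_sg hj hq.1⟩
  exact cont_G2.comp h1.continuousOn h2

theorem cont_Gj' {j : ℕ} (hj : j ≤ 2) : ContinuousOn (Gj' j) (Dj j ×ˢ univ) := by
  refine cont_sub (g := fun q => pm (sg j).symm (G2' (pm (sg j) q.1.1) q.2.1)) ?_ fun q hq =>
    Gj'_val (xi_sg hj hq.1)
  have h1 : Continuous fun q : ↥CaP2 × ↥CaP2 => ((pm (sg j) q.1.1, q.2.1) : OMat × OMat) :=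
    ((continuous_pm _).comp (continuous_subtype_val.comp continuous_fst)).prodMk
      (continuous_subtype_val.comp continuous_snd)
  have h2 : MapsTo (fun q : ↥CaP2 × ↥CaP2 => ((pm (sg j) q.1.1, q.2.1) : OMat × OMat))
      (Dj j ×ˢ univ) dom := fun q hq => ⟨pm_mem _ q.1.2, xi_sg hj hq.1⟩
  have h3 : ContinuousOn (fun q : ↥CaP2 × ↥CaP2 => G2' (pm (sg j) q.1.1) q.2.1)
      (Dj j ×ˢ univ) := cont_G2'.comp h1.continuousOn h2
  exact (continuous_pm _).comp_continuousOn h3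

theorem Gj_Gj' {j : ℕ} (hj : j ≤ 2) {b : ↥CaP2} (hb : b ∈ Dj j) (a : ↥CaP2) :
    Gj j (b, Gj' j (b, a)) = a := by
  have h := xi_sg hj hb
  have e1 : (Gj' j (b, a)).1 = pm (sg j).symm (G2' (pm (sg j) b.1) a.1) := Gj'_val h
  have e2 : (Gj j (b, Gj' j (b, a))).1 = G2 (pm (sg j) b.1) (pm (sg j) (Gj' j (b, a)).1) :=
    Gj_val h
  have e3 : pm (sg j) (Gj' j (b, a)).1 = G2' (pm (sg j) b.1) a.1 := by rw [e1, pm_pm]
  have e4 := G2_G2' (pm_mem (sg j) b.2) h a.2
  exact Subtype.ext (e2.trans ((congrArg _ e3).trans e4))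

theorem Gj'_Gj {j : ℕ} (hj : j ≤ 2) {b : ↥CaP2} (hb : b ∈ Dj j) (a : ↥CaP2) :
    Gj' j (b, Gj j (b, a)) = a := by
  have h := xi_sg hj hb
  have e1 : (Gj j (b, a)).1 = G2 (pm (sg j) b.1) (pm (sg j) a.1) := Gj_val h
  have e2 : (Gj' j (b, Gj j (b, a))).1 =
      pm (sg j).symm (G2' (pm (sg j) b.1) (Gj j (b, a)).1) := Gj'_val h
  have e4 := G2'_G2 (pm_mem (sg j) b.2) h (pm_mem (sg j) a.2)
  refine Subtype.ext (e2.trans ?_)
  rw [e1, e4, pm_pm']

/-- the vector `(0, 0, 1)` -/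
noncomputable def w0 : Fin 3 → Oct := fun i => if i = 2 then 1 else 0

theorem w0_two : w0 2 = 1 := if_pos rfl

/-- the point `(0, 0, 1)` -/
noncomputable def e2 : ↥CaP2 := ⟨npr w0, npr_mem w0_two⟩

theorem tf_e2 (a : ↥CaP2) : tf a.1 e2.1 = xi 2 a.1 := by
  have h0 : w0 0 = 0 := if_neg (by decide)
  have h1 : w0 1 = 0 := if_neg (by decide)
  have hn : ns w0 = 1 := by
    rw [ns, Fin.sum_univ_three, h0, h1, w0_two, nq_zero, nq_one]; norm_num
  have x0 : xi 0 e2.1 = 0 := by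
    change xi 0 (npr w0) = 0
    rw [xi_npr, h0, nq_zero, zero_div]
  have x1 : xi 1 e2.1 = 0 := by
    change xi 1 (npr w0) = 0
    rw [xi_npr, h1, nq_zero, zero_div]
  have x2 : xi 2 e2.1 = 1 := by
    change xi 2 (npr w0) = 1
    rw [xi_npr, w0_two, nq_one, hn, div_one]
  have y0 : e2.1 0 1 = 0 := by
    change npr w0 0 1 = 0
    rw [npr, h0, zero_omul, smul_zero]
  have y1 : e2.1 0 2 = 0 := by
    change npr w0 0 2 = 0
    rw [npr, h0, zero_omul, smul_zero]
  have y2 : e2.1 1 2 = 0 := by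
    change npr w0 1 2 = 0
    rw [npr, h1, zero_omul, smul_zero]
  rw [tf_eq a.2 e2.2, x0, x1, x2, y0, y1, y2, ip_zero_right, ip_zero_right, ip_zero_right]
  ring

theorem fG_Gj {j : ℕ} (hj : j ≤ 2) {b : ↥CaP2} (hb : b ∈ Dj j) (a : ↥CaP2) :
    tf a.1 b.1 = tf (Gj j (b, a)).1 e2.1 := by
  have h := xi_sg hj hb
  rw [tf_e2, Gj_val (q := (b, a)) h]
  change _ = xi 2 (G2 (pm (sg j) b.1) (pm (sg j) a.1))
  rw [xi_G2 (pm_mem _ b.2) h (pm_mem _ a.2), tf_pm]

/-- the common point of the handles -/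
noncomputable def b0 : ↥CaP2 := ⟨npr fun _ => 1, npr_mem (j := 0) rfl⟩

theorem b0_mem {j : ℕ} (hj : j ≤ 2) : b0 ∈ Dj j := by
  intro i hi
  rw [dgN_of_lt (Nat.lt_succ_of_le hi), dgN_of_lt (Nat.lt_succ_of_le hj)]
  change xi _ (npr fun _ => 1) ≤ xi _ (npr fun _ => 1)
  rw [xi_npr, xi_npr]

end Vale.Agent.P216.H893
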