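import Vale.Agent.P216.H893.Oct

/-!
# The Cayley plane

`CaP2` = the Hermitian idempotents of trace one in the 3 x 3 matrices over the octonions, with
the metric of `Fin 3 → Fin 3 → Oct`. Every point is `rk x y t` = `v v*` with `v = (x, y, t)`,
`t` real.
-/

open Set Quaternion Topology

namespace Vale.Agent.P216.H893

open Oct

/-- The Hermitian matrix with diagonal `a, b, c` and entries `p = (0,1)`, `q = (0,2)`,
`r = (1,2)`. -/
noncomputable def hm (a b c : ℝ) (p q r : Oct) : OMat :=
  ![![a • 1, p, q], ![star p, b • 1, r], ![star q, star r, c • 1]]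

section hm

variable (a b c : ℝ) (p q r : Oct)

theorem hm00 : hm a b c p q r 0 0 = a • 1 := rfl
theorem hm01 : hm a b c p q r 0 1 = p := rfl
theorem hm02 : hm a b c p q r 0 2 = q := rfl
theorem hm10 : hm a b c p q r 1 0 = star p := rfl
theorem hm11 : hm a b c p q r 1 1 = b • 1 := rfl
theorem hm12 : hm a b c p q r 1 2 = r := rfl
theorem hm20 : hm a b c p q r 2 0 = star q := rfl
theorem hm21 : hm a b c p q r 2 1 = star r := rfl
theorem hm22 : hm a b c p q r 2 2 = c • 1 := rfl

end hm

theorem omat_ext {A B : OMat} (h00 : A 0 0 = B 0 0) (h01 : A 0 1 = B 0 1) (h02 : A 0 2 = B 0 2)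
    (h10 : A 1 0 = B 1 0) (h11 : A 1 1 = B 1 1) (h12 : A 1 2 = B 1 2)
    (h20 : A 2 0 = B 2 0) (h21 : A 2 1 = B 2 1) (h22 : A 2 2 = B 2 2) : A = B := by
  funext i j
  fin_cases i <;> fin_cases j <;> assumption

/-- The real coefficient of a diagonal entry. -/
theorem one_smul_mul (r : ℝ) (x : Oct) : (r • (1 : Oct)) * x = r • x := by
  rw [smul_omul, one_omul]

theorem mul_smul_one (r : ℝ) (x : Oct) : x * (r • (1 : Oct)) = r • x := by
  rw [omul_smul, omul_one]

theorem smul_one_inj {r s : ℝ} (h : r • (1 : Oct) = s • 1) : r = s := by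
  have := congrArg Oct.re h
  simpa [Oct.re, smul_fst, one_fst] using this

theorem eq_smul_one {x : Oct} (h : x = star x) : x = Oct.re x • 1 := by
  have h1 : x.1 = star x.1 := congrArg Prod.fst h
  have h2 : x.2 = -x.2 := congrArg Prod.snd h
  have h3 : x.2 = 0 := by
    have : (2 : ℝ) • x.2 = 0 := by rw [two_smul]; nth_rewrite 2 [h2]; abel
    exact (smul_eq_zero.1 this).resolve_left two_ne_zero
  have i1 := congrArg QuaternionAlgebra.imI h1
  have i2 := congrArg QuaternionAlgebra.imJ h1
  have i3 := congrArg QuaternionAlgebra.imK h1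
  rw [Quaternion.imI_star] at i1
  rw [Quaternion.imJ_star] at i2
  rw [Quaternion.imK_star] at i3
  apply ext8 <;> simp only [Oct.re, smul_fst, smul_snd, one_fst, one_snd, Quaternion.re_smul,
    Quaternion.imI_smul, Quaternion.imJ_smul, Quaternion.imK_smul, Quaternion.re_one,
    Quaternion.imI_one, Quaternion.imJ_one, Quaternion.imK_one, h3, Quaternion.re_zero,
    Quaternion.imI_zero, Quaternion.imJ_zero, Quaternion.imK_zero, smul_eq_mul, mul_one, mul_zero]
  <;> linarith

/-- The equations of the Cayley plane. -/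
structure Eqs (a b c : ℝ) (p q r : Oct) : Prop where
  tr : a + b + c = 1
  np : nq p = a * b
  nq' : nq q = a * c
  nr : nq r = b * c
  hp : q * star r = c • p
  hq : p * r = b • q
  hr : star p * q = a • r

theorem Eqs.mem {a b c : ℝ} {p q r : Oct} (h : Eqs a b c p q r) : hm a b c p q r ∈ CaP2 := by
  obtain ⟨tr, np, nq', nr, hp, hq, hr⟩ := h
  have hp' : r * star q = c • star p := by
    have := congrArg star hp
    rwa [star_omul, ostar_star, ostar_smul] at this
  have hq' : star r * star p = b • star q := by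
    have := congrArg star hq
    rwa [star_omul, ostar_smul] at this
  have hr' : star q * p = a • star r := by
    have := congrArg star hr
    rwa [star_omul, ostar_star, ostar_smul] at this
  refine ⟨fun i j => ?_, ?_, ?_⟩
  · fin_cases i <;> fin_cases j <;>
    simp only [Fin.zero_eta, Fin.mk_one, Fin.reduceFinMk, hm00, hm01, hm02, hm10, hm11, hm12,
      hm20, hm21, hm22, ostar_star, ostar_smul, ostar_one]
  · apply omat_ext <;>
    simp only [omm, Fin.sum_univ_three, hm00, hm01, hm02, hm10, hm11, hm12, hm20, hm21, hm22,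
      one_smul_mul, mul_smul_one, mul_star_self, star_mul_self, hp, hq, hr, hp', hq', hr', np,
      nq', nr, smul_smul]
    · linear_combination (norm := module) (a * tr) • (1 : Oct)
    · linear_combination (norm := module) tr • p
    · linear_combination (norm := module) tr • q
    · linear_combination (norm := module) tr • star p
    · linear_combination (norm := module) (b * tr) • (1 : Oct)
    · linear_combination (norm := module) tr • r
    · linear_combination (norm := module) tr • star q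
    · linear_combination (norm := module) tr • star r
    · linear_combination (norm := module) (c * tr) • (1 : Oct)
  · rw [Fin.sum_univ_three, hm00, hm11, hm22, ← add_smul, ← add_smul, tr, one_smul]

/-- The diagonal entries. -/
noncomputable def xi (i : Fin 3) (A : OMat) : ℝ := Oct.re (A i i)

theorem eq_hm {A : OMat} (h : ∀ i j, A j i = star (A i j)) :
    A = hm (xi 0 A) (xi 1 A) (xi 2 A) (A 0 1) (A 0 2) (A 1 2) :=
  omat_ext (eq_smul_one (h 0 0)) rfl rfl (h 0 1) (eq_smul_one (h 1 1)) rfl (h 0 2) (h 1 2)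
    (eq_smul_one (h 2 2))

theorem eqs_of_mem_hm {a b c : ℝ} {p q r : Oct} (h : hm a b c p q r ∈ CaP2) :
    Eqs a b c p q r := by
  obtain ⟨-, h2, h3⟩ := h
  rw [Fin.sum_univ_three, hm00, hm11, hm22, ← add_smul, ← add_smul] at h3
  have tr : a + b + c = 1 := smul_one_inj (by rw [h3, one_smul])
  have e : ∀ i j, omm (hm a b c p q r) (hm a b c p q r) i j = hm a b c p q r i j := fun i j =>
    congrFun (congrFun h2 i) j
  have e00 := e 0 0
  have e11 := e 1 1
  have e22 := e 2 2
  have e01 := e 0 1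
  have e02 := e 0 2
  have e12 := e 1 2
  simp only [omm, Fin.sum_univ_three, hm00, hm01, hm02, hm10, hm11, hm12, hm20, hm21, hm22,
      one_smul_mul, mul_smul_one, mul_star_self, star_mul_self, smul_smul] at e00 e11 e22 e01 e02 e12
  rw [← add_smul, ← add_smul] at e00 e11 e22
  have f00 := smul_one_inj e00
  have f11 := smul_one_inj e11
  have f22 := smul_one_inj e22
  refine ⟨tr, ?_, ?_, ?_, ?_, ?_, ?_⟩
  · linear_combination (1 / 2 : ℝ) * (f00 + f11 - f22) + (1 / 2 : ℝ) * (c - a - b) * tr
  · linear_combination (1 / 2 : ℝ) * (f00 + f22 - f11) + (1 / 2 : ℝ) * (b - a - c) * tr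
  · linear_combination (1 / 2 : ℝ) * (f11 + f22 - f00) + (1 / 2 : ℝ) * (a - b - c) * tr
  · linear_combination (norm := module) e01 - tr • p
  · linear_combination (norm := module) e02 - tr • q
  · linear_combination (norm := module) e12 - tr • r

theorem eqs_of_mem {A : OMat} (h : A ∈ CaP2) :
    Eqs (xi 0 A) (xi 1 A) (xi 2 A) (A 0 1) (A 0 2) (A 1 2) := by
  apply eqs_of_mem_hm
  rw [← eq_hm h.1]
  exact h

/-- The matrix `v v*`, `v = (x, y, t)`, `t` real. -/
noncomputable def rk (x y : Oct) (t : ℝ) : OMat :=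
  hm (nq x) (nq y) (t ^ 2) (x * star y) (t • x) (t • y)

theorem rk_mem {x y : Oct} {t : ℝ} (h : nq x + nq y + t ^ 2 = 1) : rk x y t ∈ CaP2 := by
  apply Eqs.mem
  refine ⟨h, ?_, ?_, ?_, ?_, ?_, ?_⟩
  · rw [nq_mul, nq_star]
  · rw [nq_smul, mul_comm]
  · rw [nq_smul, mul_comm]
  · rw [ostar_smul, omul_smul, smul_omul, smul_smul, sq]
  · rw [omul_smul, mul_star_mul', smul_smul, smul_smul, mul_comm]
  · rw [omul_smul, star_omul, ostar_star, mul_star_mul', smul_smul, smul_smul, mul_comm]

theorem Eqs.nonneg {a b c : ℝ} {p q r : Oct} (h : Eqs a b c p q r) : 0 ≤ a ∧ 0 ≤ b ∧ 0 ≤ c := by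
  have h1 := h.np ▸ nq_nonneg p
  have h2 := h.nq' ▸ nq_nonneg q
  have h3 := h.nr ▸ nq_nonneg r
  have h0 := h.tr
  refine ⟨by nlinarith, by nlinarith, by nlinarith⟩

/-- Every point of the Cayley plane is `v v*`. -/
theorem Eqs.exists_rk {a b c : ℝ} {p q r : Oct} (h : Eqs a b c p q r) :
    ∃ (x y : Oct) (t : ℝ), 0 ≤ t ∧ nq x + nq y + t ^ 2 = 1 ∧ hm a b c p q r = rk x y t := by
  obtain ⟨ha, hb, hc⟩ := h.nonneg
  obtain ⟨tr, np, nq', nr, hp, hq, hr⟩ := h
  rcases hc.eq_or_lt with hc0 | hc0
  · subst hc0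
    rw [mul_zero] at nq' nr
    have hq0 := (nq_eq_zero q).1 nq'
    have hr0 := (nq_eq_zero r).1 nr
    subst hq0 hr0
    rcases hb.eq_or_lt with hb0 | hb0
    · subst hb0
      rw [mul_zero] at np
      have hp0 := (nq_eq_zero p).1 np
      subst hp0
      have ha1 : a = 1 := by linarith
      subst ha1
      refine ⟨1, 0, 0, le_rfl, by rw [nq_one, nq_zero]; norm_num, ?_⟩
      rw [rk, nq_one, nq_zero, ostar_zero, omul_zero, zero_smul, zero_smul]
      norm_num
    · set s := √b with hs
      have hs0 : 0 < s := Real.sqrt_pos.2 hb0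
      have hs2 : s ^ 2 = b := Real.sq_sqrt hb
      refine ⟨s⁻¹ • p, s • 1, 0, le_rfl, ?_, ?_⟩
      · rw [nq_smul, nq_smul, nq_one, np, hs2, inv_pow, hs2]
        field_simp
        linarith
      · rw [rk, nq_smul, nq_smul, nq_one, np, inv_pow, hs2, zero_smul, zero_smul, ostar_smul,
          ostar_one, omul_smul, smul_omul, omul_one, smul_smul, mul_inv_cancel₀ hs0.ne', one_smul,
          mul_one]
        congr 1
        · field_simp
        · norm_num
  · set t := √c with ht
    have ht0 : 0 < t := Real.sqrt_pos.2 hc0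
    have ht2 : t ^ 2 = c := Real.sq_sqrt hc
    refine ⟨t⁻¹ • q, t⁻¹ • r, t, ht0.le, ?_, ?_⟩
    · rw [nq_smul, nq_smul, nq', nr, inv_pow, ht2]
      field_simp
      linarith
    · rw [rk, nq_smul, nq_smul, nq', nr, inv_pow, ht2, smul_smul, smul_smul,
        mul_inv_cancel₀ ht0.ne', one_smul, one_smul, ostar_smul, omul_smul, smul_omul, smul_smul,
        hp, smul_smul]
      have e1 : t⁻¹ * t⁻¹ * c = 1 := by rw [← ht2]; field_simp
      rw [e1, one_smul]
      congr 1
      · field_simp
      · field_simp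

theorem exists_rk {A : OMat} (h : A ∈ CaP2) :
    ∃ (x y : Oct) (t : ℝ), 0 ≤ t ∧ nq x + nq y + t ^ 2 = 1 ∧ A = rk x y t := by
  obtain ⟨x, y, t, h1, h2, h3⟩ := (eqs_of_mem h).exists_rk
  exact ⟨x, y, t, h1, h2, by rw [eq_hm h.1, h3]⟩

end Vale.Agent.P216.H893
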