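import Vale.Agent.P216.H893.CaTop
import Vale.Agent.P216.H347C.PrSp

/-!
# P216-C : the Cayley plane as an abstract projective space
-/

open Set Quaternion Topology

namespace Vale.Agent.P216.H893

open Oct

theorem norm_le_of_nq' {x : Oct} {c : ℝ} (h : nq x ≤ c ^ 2) (hc : 0 ≤ c) : ‖x‖ ≤ c := by
  have e := nq_eq x
  have h1 : ‖x.1‖ * ‖x.1‖ ≤ c * c := by
    rw [← Quaternion.normSq_eq_norm_mul_self, Quaternion.normSq_def']
    nlinarith [sq_nonneg x.2.re, sq_nonneg x.2.imI, sq_nonneg x.2.imJ, sq_nonneg x.2.imK]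
  have h2 : ‖x.2‖ * ‖x.2‖ ≤ c * c := by
    rw [← Quaternion.normSq_eq_norm_mul_self, Quaternion.normSq_def']
    nlinarith [sq_nonneg x.1.re, sq_nonneg x.1.imI, sq_nonneg x.1.imJ, sq_nonneg x.1.imK]
  exact max_le (abs_le_of_sq_le_sq' (by nlinarith) hc).2 (abs_le_of_sq_le_sq' (by nlinarith) hc).2

theorem isCompact_nq_le (c : ℝ) : IsCompact {v : Oct | nq v ≤ c} := by
  refine Metric.isCompact_of_isClosed_isBounded (isClosed_le continuous_nq continuous_const) ?_
  refine (Metric.isBounded_closedBall (x := (0 : Oct)) (r := √(max c 0))).subset fun v hv => ?_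
  rw [mem_closedBall_zero_iff]
  refine norm_le_of_nq' ?_ (Real.sqrt_nonneg _)
  rw [Real.sq_sqrt (le_max_right _ _)]
  have : nq v ≤ c := hv
  exact this.trans (le_max_left _ _)

open Classical in
/-- homogeneous coordinates -/
noncomputable def ptCa (w : Fin (2 + 1) → Oct) : ↥CaP2 :=
  if h : npr w ∈ CaP2 then ⟨npr w, h⟩ else b0

theorem ptCa_val {w : Fin 3 → Oct} {j : Fin 3} (h : w j = 1) : (ptCa w).1 = npr w := by
  rw [ptCa, dif_pos (npr_mem h)]

theorem pm_mem_iff (σ : Equiv.Perm (Fin 3)) (a : ↥CaP2) : pm σ a.1 ∈ CaP2 := pm_mem σ a.2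

/-- permutation of the coordinates -/
noncomputable def pmH (σ : Equiv.Perm (Fin 3)) : ↥CaP2 ≃ₜ ↥CaP2 where
  toFun a := ⟨pm σ a.1, pm_mem σ a.2⟩
  invFun a := ⟨pm σ.symm a.1, pm_mem σ.symm a.2⟩
  left_inv a := Subtype.ext (pm_pm' σ a.1)
  right_inv a := Subtype.ext (pm_pm σ a.1)
  continuous_toFun := ((continuous_pm σ).comp continuous_subtype_val).subtype_mk _
  continuous_invFun := ((continuous_pm σ.symm).comp continuous_subtype_val).subtype_mk _

/-- **The Cayley plane as an abstract projective space.** -/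
noncomputable def prCa : H347C.PrSp ↥CaP2 Oct 2 where
  one := 1
  q := nq
  q_cont := continuous_nq
  q_zero := nq_zero
  q_one := nq_one
  q_nonneg := nq_nonneg
  q_eq_zero v h := (nq_eq_zero v).1 h
  q_smul s v := nq_smul v s
  q_cpt := isCompact_nq_le
  dg i x := xi i x.1
  dg_cont i := (continuous_xi i).comp continuous_subtype_val
  dg_nonneg i x := xi_nonneg x.2 i
  dg_sum x := sum_xi x.2
  pt := ptCa
  pt_cont j := cont_sub (g := npr)
    (continuousOn_npr.mono fun w hw => zero_lt_one.trans_le (one_le_ns (j := j) hw))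
    fun w hw => ptCa_val (j := j) hw
  dg_pt j w h i := by
    rw [ptCa_val h, xi_npr]
    rfl
  ch j x := ch j x.1
  ch_cont j := (continuousOn_ch j).comp continuous_subtype_val.continuousOn fun _ h => h
  ch_self j x h := ch_self x.2 h
  q_ch j x h i := nq_ch x.2 h i
  pt_ch j x h := Subtype.ext (by rw [ptCa_val (ch_self x.2 h), npr_ch x.2 h])
  perm σ := ⟨pmH σ, fun i x => rfl⟩

end Vale.Agent.P216.H893
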