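import Vale.Agent.P216.H893.CaTop

/-!
# P216-C : input for the ring structure of the Cayley plane

Real rotations, as homotopies from the identity; contraction of the fat polydiscs.
-/

open Set Quaternion Topology

namespace Vale.Agent.P216.H893

open Oct

theorem nq_smul_one (r : ℝ) : nq (r • (1 : Oct)) = r ^ 2 := by
  rw [nq_smul, nq_one, mul_one]

theorem par_real (θ : ℝ) : Real.cos θ ^ 2 + nq (Real.sin θ • (1 : Oct)) = 1 := by
  rw [nq_smul_one]
  exact Real.cos_sq_add_sin_sq θ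

/-- the real rotation in the plane `(0, 2)` -/
noncomputable def R02 (θ : ℝ) (a : ↥CaP2) : ↥CaP2 :=
  ⟨rot (Real.sin θ • 1) (Real.cos θ) a.1, rot_mem a.2 (par_real θ)⟩

/-- the real rotation in the plane `(1, 2)` -/
noncomputable def R12 (θ : ℝ) (a : ↥CaP2) : ↥CaP2 :=
  ⟨rot' (Real.sin θ • 1) (Real.cos θ) a.1, rot'_mem a.2 (par_real θ)⟩

theorem continuous_par : Continuous fun q : ↥CaP2 × ℝ =>
    (((Real.sin q.2 • (1 : Oct), Real.cos q.2), q.1.1) : (Oct × ℝ) × OMat) :=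
  (((Real.continuous_sin.comp continuous_snd).smul continuous_const).prodMk
    (Real.continuous_cos.comp continuous_snd)).prodMk
    (continuous_subtype_val.comp continuous_fst)

theorem continuous_R02 : Continuous fun q : ↥CaP2 × ℝ => R02 q.2 q.1 :=
  (continuous_rot.comp continuous_par).subtype_mk _

theorem continuous_R12 : Continuous fun q : ↥CaP2 × ℝ => R12 q.2 q.1 :=
  (continuous_rot'.comp continuous_par).subtype_mk _

theorem rot_zero {A : OMat} (hA : A ∈ CaP2) : rot ((0 : ℝ) • 1) 1 A = A := by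
  conv_rhs => rw [eq_hm hA.1]
  rw [rot, zero_smul, nq_zero, ip_zero_left]
  congr 1
  · ring
  · ring
  · rw [zero_omul, one_smul, sub_zero]
  · rw [smul_zero, add_zero]
  · rw [omul_zero, one_smul, zero_add]

theorem R02_zero (a : ↥CaP2) : R02 0 a = a := by
  apply Subtype.ext
  change rot (Real.sin 0 • 1) (Real.cos 0) a.1 = a.1
  rw [Real.sin_zero, Real.cos_zero, rot_zero a.2]

theorem R12_zero (a : ↥CaP2) : R12 0 a = a := by
  apply Subtype.ext
  change rot' (Real.sin 0 • 1) (Real.cos 0) a.1 = a.1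
  rw [Real.sin_zero, Real.cos_zero, rot', rot_zero (pm_mem _ a.2), pm_s01]

theorem R02_neg (θ : ℝ) (a : ↥CaP2) : R02 (-θ) (R02 θ a) = a := by
  apply Subtype.ext
  change rot (Real.sin (-θ) • 1) (Real.cos (-θ)) (rot (Real.sin θ • 1) (Real.cos θ) a.1) = a.1
  rw [Real.sin_neg, Real.cos_neg, neg_smul, rot_rot a.2 (par_real θ)]

theorem R12_neg (θ : ℝ) (a : ↥CaP2) : R12 (-θ) (R12 θ a) = a := by
  apply Subtype.ext
  change rot' (Real.sin (-θ) • 1) (Real.cos (-θ)) (rot' (Real.sin θ • 1) (Real.cos θ) a.1) = a.1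
  rw [Real.sin_neg, Real.cos_neg, neg_smul, rot'_rot' a.2 (par_real θ)]

/-- The quarter rotation exchanges the diagonal entries. -/
theorem xi_quarter (A : OMat) : xi 0 (rot ((1 : ℝ) • 1) 0 A) = xi 2 A ∧
    xi 1 (rot ((1 : ℝ) • 1) 0 A) = xi 1 A ∧ xi 2 (rot ((1 : ℝ) • 1) 0 A) = xi 0 A := by
  rw [rot, xi_hm0, xi_hm1, xi_hm2, one_smul, nq_one]
  refine ⟨?_, rfl, ?_⟩
  · ring
  · ring

theorem xi_R02 (a : ↥CaP2) : xi 0 (R02 (Real.pi / 2) a).1 = xi 2 a.1 ∧
    xi 1 (R02 (Real.pi / 2) a).1 = xi 1 a.1 ∧ xi 2 (R02 (Real.pi / 2) a).1 = xi 0 a.1 := by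
  change xi 0 (rot (Real.sin (Real.pi / 2) • 1) (Real.cos (Real.pi / 2)) a.1) = _ ∧
    xi 1 (rot (Real.sin (Real.pi / 2) • 1) (Real.cos (Real.pi / 2)) a.1) = _ ∧
    xi 2 (rot (Real.sin (Real.pi / 2) • 1) (Real.cos (Real.pi / 2)) a.1) = _
  rw [Real.sin_pi_div_two, Real.cos_pi_div_two]
  exact xi_quarter a.1

theorem s01_0 : s01 0 = 1 := rfl
theorem s01_1 : s01 1 = 0 := rfl
theorem s01_2 : s01 2 = 2 := rfl

theorem xi_R12 (a : ↥CaP2) : xi 0 (R12 (Real.pi / 2) a).1 = xi 0 a.1 ∧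
    xi 1 (R12 (Real.pi / 2) a).1 = xi 2 a.1 ∧ xi 2 (R12 (Real.pi / 2) a).1 = xi 1 a.1 := by
  change xi 0 (pm s01 (rot (Real.sin (Real.pi / 2) • 1) (Real.cos (Real.pi / 2)) (pm s01 a.1))) = _ ∧
    xi 1 (pm s01 (rot (Real.sin (Real.pi / 2) • 1) (Real.cos (Real.pi / 2)) (pm s01 a.1))) = _ ∧
    xi 2 (pm s01 (rot (Real.sin (Real.pi / 2) • 1) (Real.cos (Real.pi / 2)) (pm s01 a.1))) = _
  rw [Real.sin_pi_div_two, Real.cos_pi_div_two, xi_pm, xi_pm, xi_pm, s01_0, s01_1, s01_2]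
  obtain ⟨h0, h1, h2⟩ := xi_quarter (pm s01 a.1)
  exact ⟨h1, h0, h2⟩

attribute [local irreducible] R02 R12

/-- **The lines.** A homotopy from the identity to a homeomorphism which carries the line
`{xi 2 = 0}` to the line through the coordinate points `l < j`. -/
theorem exists_line (l j : Fin 3) (h : l < j) : ∃ F : ↥CaP2 × ℝ → ↥CaP2, Continuous F ∧
    (∀ a, F (a, 0) = a) ∧ ∀ a : ↥CaP2, xi 2 a.1 = 0 →
      ∀ i, i ≠ l → i ≠ j → xi i (F (a, 1)).1 = 0 := by
  have hc : Continuous fun q : ↥CaP2 × ℝ => ((q.1, Real.pi / 2 * q.2) : ↥CaP2 × ℝ) :=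
    continuous_fst.prodMk (continuous_const.mul continuous_snd)
  have hcases : (l = 0 ∧ j = 1) ∨ (l = 0 ∧ j = 2) ∨ (l = 1 ∧ j = 2) := by
    revert l j; decide
  rcases hcases with ⟨rfl, rfl⟩ | ⟨rfl, rfl⟩ | ⟨rfl, rfl⟩
  · refine ⟨fun q => q.1, continuous_fst, fun a => rfl, fun a ha i h0 h1 => ?_⟩
    fin_cases i
    · exact absurd rfl h0
    · exact absurd rfl h1
    · exact ha
  · refine ⟨fun q => R12 (Real.pi / 2 * q.2) q.1, continuous_R12.comp hc, fun a => ?_,
      fun a ha i h0 h1 => ?_⟩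
    · change R12 (Real.pi / 2 * 0) a = a
      rw [mul_zero, R12_zero]
    · change xi i (R12 (Real.pi / 2 * 1) a).1 = 0
      rw [mul_one]
      fin_cases i
      · exact absurd rfl h0
      · exact (xi_R12 a).2.1.trans ha
      · exact absurd rfl h1
  · refine ⟨fun q => R02 (Real.pi / 2 * q.2) q.1, continuous_R02.comp hc, fun a => ?_,
      fun a ha i h0 h1 => ?_⟩
    · change R02 (Real.pi / 2 * 0) a = a
      rw [mul_zero, R02_zero]
    · change xi i (R02 (Real.pi / 2 * 1) a).1 = 0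
      rw [mul_one]
      fin_cases i
      · exact (xi_R02 a).1.trans ha
      · exact absurd rfl h0
      · exact absurd rfl h1

/-! ### Fat polydiscs -/

/-- the fat polydisc -/
def Kf (c : ℝ) (l : Fin 3) : Set ↥CaP2 := {a | ∀ i, xi i a.1 ≤ c * xi l a.1}

theorem isClosed_Kf (c : ℝ) (l : Fin 3) : IsClosed (Kf c l) := by
  have : Kf c l = ⋂ i, {a : ↥CaP2 | xi i a.1 ≤ c * xi l a.1} := by
    ext a
    simp [Kf]
  rw [this]
  exact isClosed_iInter fun i => isClosed_le ((continuous_xi i).comp continuous_subtype_val)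
    (continuous_const.mul ((continuous_xi l).comp continuous_subtype_val))

theorem Kf_pos {c : ℝ} {l : Fin 3} {a : ↥CaP2} (ha : a ∈ Kf c l) :
    0 < xi l a.1 := by
  by_contra h
  have h1 : xi l a.1 = 0 := le_antisymm (not_lt.1 h) (xi_nonneg a.2 l)
  have h0 : ∀ i, xi i a.1 = 0 := fun i =>
    le_antisymm ((ha i).trans (by rw [h1, mul_zero])) (xi_nonneg a.2 i)
  have := sum_xi a.2
  simp [h0] at this

/-- the vector with all the coordinates except `l` scaled by `s` -/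
noncomputable def sv (l : Fin 3) (s : ℝ) (w : Fin 3 → Oct) : Fin 3 → Oct :=
  fun i => if i = l then 1 else s • w i

theorem sv_self (l : Fin 3) (s : ℝ) (w : Fin 3 → Oct) : sv l s w l = 1 := if_pos rfl

theorem sv_ne {l i : Fin 3} (h : i ≠ l) (s : ℝ) (w : Fin 3 → Oct) : sv l s w i = s • w i :=
  if_neg h

theorem continuous_sv (l : Fin 3) :
    Continuous fun p : ℝ × (Fin 3 → Oct) => sv l p.1 p.2 := by
  refine continuous_pi fun i => ?_
  by_cases h : i = l
  · have : (fun p : ℝ × (Fin 3 → Oct) => sv l p.1 p.2 i) = fun _ => 1 := by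
      funext p
      rw [h]
      exact sv_self _ _ _
    rw [this]
    exact continuous_const
  · have : (fun p : ℝ × (Fin 3 → Oct) => sv l p.1 p.2 i) = fun p => p.1 • p.2 i := by
      funext p
      exact sv_ne h _ _
    rw [this]
    exact continuous_fst.smul ((continuous_apply i).comp continuous_snd)

/-- the scaling of the coordinates different from `l` by `1 - s` in the chart `l` -/
noncomputable def scF (l : Fin 3) (q : ↥CaP2 × ℝ) : ↥CaP2 :=
  ⟨npr (sv l (1 - q.2) (ch l q.1.1)), npr_mem (sv_self l _ _)⟩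

theorem continuousOn_scF (l : Fin 3) : ContinuousOn (scF l) ({a | 0 < xi l a.1} ×ˢ univ) := by
  refine cont_sub (g := fun q => npr (sv l (1 - q.2) (ch l q.1.1))) ?_ fun _ _ => rfl
  have h1 : ContinuousOn (fun q : ↥CaP2 × ℝ => ch l q.1.1) ({a | 0 < xi l a.1} ×ˢ univ) :=
    (continuousOn_ch l).comp (continuous_subtype_val.comp continuous_fst).continuousOn
      fun q hq => hq.1
  have h2 : ContinuousOn (fun q : ↥CaP2 × ℝ => sv l (1 - q.2) (ch l q.1.1))
      ({a | 0 < xi l a.1} ×ˢ univ) :=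
    (continuous_sv l).comp_continuousOn
      ((continuous_const.sub continuous_snd).continuousOn.prodMk h1)
  exact continuousOn_npr.comp h2 fun q _ => zero_lt_one.trans_le (one_le_ns (sv_self l _ _))

theorem scF_zero {l : Fin 3} {a : ↥CaP2} (h : 0 < xi l a.1) : scF l (a, 0) = a := by
  apply Subtype.ext
  change npr (sv l (1 - 0) (ch l a.1)) = a.1
  have : sv l (1 - 0) (ch l a.1) = ch l a.1 := by
    funext i
    by_cases hi : i = l
    · rw [hi, sv_self, ch_self a.2 h]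
    · rw [sv_ne hi, sub_zero, one_smul]
  rw [this, npr_ch a.2 h]

/-- the coordinate points -/
noncomputable def ept (l : Fin 3) : ↥CaP2 :=
  ⟨npr (sv l 0 fun _ => 0), npr_mem (sv_self l _ _)⟩

theorem scF_one {l : Fin 3} (a : ↥CaP2) : scF l (a, 1) = ept l := by
  apply Subtype.ext
  change npr (sv l (1 - 1) (ch l a.1)) = npr (sv l 0 fun _ => 0)
  congr 1
  funext i
  by_cases hi : i = l
  · rw [hi, sv_self, sv_self]
  · rw [sv_ne hi, sv_ne hi, sub_self, zero_smul, zero_smul]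

/-- the diagonal entries along the scaling -/
theorem xi_scF (l : Fin 3) (a : ↥CaP2) (h : 0 < xi l a.1) (s : ℝ) (i : Fin 3) (hi : i ≠ l) :
    xi i (scF l (a, s)).1 = (1 - s) ^ 2 * (xi i a.1 / xi l a.1) * xi l (scF l (a, s)).1 := by
  change xi i (npr _) = _ * xi l (npr _)
  rw [xi_npr, xi_npr]
  change nq (sv l (1 - s) (ch l a.1) i) / _ = _ * (nq (sv l (1 - s) (ch l a.1) l) / _)
  rw [sv_self, nq_one, sv_ne hi, nq_smul, nq_ch a.2 h]
  ring

/-- **The fat polydiscs are contractible.** -/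
theorem scF_mem {c : ℝ} (hc : 1 ≤ c) {l : Fin 3} {a : ↥CaP2} (ha : a ∈ Kf c l) {s : ℝ}
    (hs : s ∈ Icc (0 : ℝ) 1) : scF l (a, s) ∈ Kf c l := by
  have h := Kf_pos ha
  have hl := xi_nonneg (scF l (a, s)).2 l
  intro i
  by_cases hi : i = l
  · rw [hi]
    exact le_mul_of_one_le_left hl hc
  · rw [xi_scF l a h s i hi]
    refine mul_le_mul_of_nonneg_right ?_ hl
    have h1 : xi i a.1 / xi l a.1 ≤ c := (div_le_iff₀ h).2 (ha i)
    have h2 : 0 ≤ xi i a.1 / xi l a.1 := div_nonneg (xi_nonneg a.2 i) h.le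
    have h3 : (1 - s) ^ 2 ≤ 1 := by nlinarith [hs.1, hs.2]
    calc (1 - s) ^ 2 * (xi i a.1 / xi l a.1) ≤ 1 * (xi i a.1 / xi l a.1) :=
          mul_le_mul_of_nonneg_right h3 h2
      _ ≤ c := by rwa [one_mul]

end Vale.Agent.P216.H893
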