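import Vale.Agent.P216.H893.CaTop

/-!
# P216-C : input for van Kampen on the Cayley plane

The charts `Uc i = {a | 0 < xi i a}` are open, cover, loops in `Uc i` are null-homotopic, and
`Uc i ∩ Uc j` is path connected.
-/

open Set Quaternion Topology

namespace Vale.Agent.P216.H893

open Oct

/-- the domains of the three affine charts -/
def Uc (i : Fin 3) : Set ↥CaP2 := {a | 0 < xi i a.1}

theorem isOpen_Uc (i : Fin 3) : IsOpen (Uc i) :=
  isOpen_lt continuous_const ((continuous_xi i).comp continuous_subtype_val)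

theorem exists_Uc (a : ↥CaP2) : ∃ i, a ∈ Uc i := by
  by_contra h
  push Not at h
  have h1 : ∑ i, xi i a.1 = 1 := sum_xi a.2
  have h2 : ∑ i, xi i a.1 ≤ 0 := Finset.sum_nonpos fun i _ => by
    have := h i
    rw [Uc, mem_ofPred_eq, not_lt] at this
    exact this
  linarith

theorem b0_mem_Uc (i : Fin 3) : b0 ∈ Uc i := by
  change 0 < xi i (npr fun _ => 1)
  rw [xi_npr, nq_one]
  exact one_div_pos.2 (zero_lt_one.trans_le (one_le_ns (j := i) rfl))

/-- a point from a family of homogeneous vectors -/
theorem continuous_nprF {X : Type*} [TopologicalSpace X] {f : X → Fin 3 → Oct}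
    (hf : Continuous f) {j : Fin 3} (hj : ∀ x, f x j = 1) :
    Continuous fun x => (⟨npr (f x), npr_mem (hj x)⟩ : ↥CaP2) := by
  refine Continuous.subtype_mk ?_ _
  exact continuousOn_npr.comp_continuous hf fun x => zero_lt_one.trans_le (one_le_ns (hj x))

/-- **Loops in a chart are null-homotopic.** -/
theorem loop_Uc (i : Fin 3) (x : ↥CaP2) (γ : Path x x) (h : ∀ t, γ t ∈ Uc i) :
    Path.Homotopic γ (Path.refl x) := by
  have hx : x ∈ Uc i := by have := h 0; rwa [γ.source] at this
  have hc : Continuous fun t : unitInterval => ch i (γ t).1 :=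
    (continuousOn_ch i).comp_continuous (continuous_subtype_val.comp γ.continuous) h
  have hf : Continuous fun q : unitInterval × unitInterval => fun l : Fin 3 =>
      (1 - q.1.1) • ch i (γ q.2).1 l + q.1.1 • ch i x.1 l := by
    refine continuous_pi fun l => ?_
    have h1 : Continuous fun q : unitInterval × unitInterval => q.1.1 :=
      continuous_subtype_val.comp continuous_fst
    have h2 : Continuous fun q : unitInterval × unitInterval => ch i (γ q.2).1 l :=
      (continuous_apply l).comp (hc.comp continuous_snd)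
    exact ((continuous_const.sub h1).smul h2).add (h1.smul continuous_const)
  have hj : ∀ q : unitInterval × unitInterval, (fun l : Fin 3 =>
      (1 - q.1.1) • ch i (γ q.2).1 l + q.1.1 • ch i x.1 l) i = 1 := fun q => by
    change (1 - q.1.1) • ch i (γ q.2).1 i + q.1.1 • ch i x.1 i = 1
    rw [ch_self (γ q.2).2 (h q.2), ch_self x.2 hx]
    module
  refine ⟨⟨⟨⟨fun q => ⟨npr _, npr_mem (hj q)⟩, continuous_nprF hf hj⟩, fun t => ?_,
    fun t => ?_⟩, fun s t ht => ?_⟩⟩
  · apply Subtype.ext
    change npr (fun l => (1 - (0 : ℝ)) • ch i (γ t).1 l + (0 : ℝ) • ch i x.1 l) = (γ t).1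
    have : (fun l => (1 - (0 : ℝ)) • ch i (γ t).1 l + (0 : ℝ) • ch i x.1 l) = ch i (γ t).1 := by
      funext l
      module
    rw [this, npr_ch (γ t).2 (h t)]
  · apply Subtype.ext
    change npr (fun l => (1 - (1 : ℝ)) • ch i (γ t).1 l + (1 : ℝ) • ch i x.1 l) = x.1
    have : (fun l => (1 - (1 : ℝ)) • ch i (γ t).1 l + (1 : ℝ) • ch i x.1 l) = ch i x.1 := by
      funext l
      module
    rw [this, npr_ch x.2 hx]
  · apply Subtype.ext
    change npr (fun l => (1 - s.1) • ch i (γ t).1 l + s.1 • ch i x.1 l) = (γ t).1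
    have ht' : γ t = x := by
      rcases ht with rfl | rfl
      · exact γ.source
      · exact γ.target
    rw [ht']
    have : (fun l => (1 - s.1) • ch i x.1 l + s.1 • ch i x.1 l) = ch i x.1 := by
      funext l
      module
    rw [this, npr_ch x.2 hx]

theorem xi_pos_npr {w : Fin 3 → Oct} {i j : Fin 3} (hi : w i = 1) (hj : w j ≠ 0) :
    0 < xi j (npr w) := by
  rw [xi_npr]
  refine div_pos ?_ (zero_lt_one.trans_le (one_le_ns hi))
  refine lt_of_le_of_ne (nq_nonneg _) fun h => hj ((nq_eq_zero _).1 h.symm)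

theorem ch_ne_zero {a : ↥CaP2} {i j : Fin 3} (hi : a ∈ Uc i) (hj : a ∈ Uc j) :
    ch i a.1 j ≠ 0 := by
  intro h
  have h1 := nq_ch a.2 hi j
  rw [h, nq_zero] at h1
  have h2 : 0 < xi j a.1 / xi i a.1 := div_pos hj hi
  linarith

theorem one_lt_rank_Oct : 1 < Module.rank ℝ Oct := by
  have h : Module.rank ℝ Oct = Module.rank ℝ ℍ[ℝ] + Module.rank ℝ ℍ[ℝ] :=
    rank_prod' (R := ℝ) (M := ℍ[ℝ]) (M₁ := ℍ[ℝ])
  rw [h, Quaternion.rank_eq_four]
  norm_num

/-- **The intersections of two charts are path connected.** -/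
theorem joined_Uc (i j : Fin 3) (a : ↥CaP2) (hi : a ∈ Uc i) (hj : a ∈ Uc j) :
    JoinedIn (Uc i ∩ Uc j) b0 a := by
  obtain ⟨γ, hγ⟩ := (isPathConnected_compl_singleton_of_one_lt_rank one_lt_rank_Oct
    (0 : Oct)).joinedIn 1 (by
      intro h
      have h1 : nq (1 : Oct) = nq 0 := by rw [h]
      rw [nq_one, nq_zero] at h1
      norm_num at h1) (ch i a.1 j) (ch_ne_zero hi hj)
  let f : unitInterval → Fin 3 → Oct := fun t l =>
    if l = i then 1 else if l = j then γ t else (1 - t.1) • 1 + t.1 • ch i a.1 l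
  have hf : Continuous f := by
    refine continuous_pi fun l => ?_
    change Continuous fun t : unitInterval =>
      if l = i then 1 else if l = j then γ t else (1 - t.1) • (1 : Oct) + t.1 • ch i a.1 l
    split_ifs
    · exact continuous_const
    · exact γ.continuous
    · have h1 : Continuous fun q : unitInterval => q.1 := continuous_subtype_val
      exact ((continuous_const.sub h1).smul continuous_const).add (h1.smul continuous_const)
  have hj1 : ∀ t, f t i = 1 := fun t => if_pos rfl
  have hne : ∀ t, f t j ≠ 0 := fun t => by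
    change (if j = i then 1 else if j = j then γ t else (1 - t.1) • (1 : Oct) + t.1 • ch i a.1 j) ≠ 0
    rw [if_pos (rfl : j = j)]
    split_ifs with h1
    · intro h
      have h1 : nq (1 : Oct) = nq 0 := by rw [h]
      rw [nq_one, nq_zero] at h1
      norm_num at h1
    · exact hγ t
  refine ⟨⟨⟨fun t => ⟨npr (f t), npr_mem (hj1 t)⟩, continuous_nprF hf hj1⟩, ?_, ?_⟩,
    fun t => ⟨?_, ?_⟩⟩
  · apply Subtype.ext
    change npr (f 0) = npr fun _ => 1
    congr 1
    funext l
    change (if l = i then 1 else if l = j then γ 0 else (1 - (0 : ℝ)) • (1 : Oct) +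
      (0 : ℝ) • ch i a.1 l) = 1
    split_ifs
    · rfl
    · exact γ.source
    · module
  · apply Subtype.ext
    change npr (f 1) = a.1
    have : f 1 = ch i a.1 := by
      funext l
      change (if l = i then 1 else if l = j then γ 1 else (1 - (1 : ℝ)) • (1 : Oct) +
        (1 : ℝ) • ch i a.1 l) = ch i a.1 l
      split_ifs with h1 h2
      · rw [h1, ch_self a.2 hi]
      · rw [h2, γ.target]
      · module
    rw [this, npr_ch a.2 hi]
  · change 0 < xi i (npr (f t))
    refine xi_pos_npr (hj1 t) ?_
    rw [hj1 t]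
    intro h
    have h1 : nq (1 : Oct) = nq 0 := by rw [h]
    rw [nq_one, nq_zero] at h1
    norm_num at h1
  · exact xi_pos_npr (hj1 t) (hne t)

end Vale.Agent.P216.H893
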