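import Mathlib

/-!
# The Cayley plane: definitions

`Oct` = the octonions, pairs of quaternions with the Cayley-Dickson product.
`CaP2` = the Cayley plane, realised as the set of the Hermitian idempotent matrices of trace one
in the 3 x 3 matrices over the octonions (the rank one idempotents of the exceptional Jordan
algebra).
-/

open Quaternion

namespace Vale.Agent.P216.H893

/-- The octonions: pairs of quaternions (Cayley-Dickson). -/
def Oct : Type := ℍ[ℝ] × ℍ[ℝ]

namespace Oct

noncomputable instance : NormedAddCommGroup Oct :=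
  inferInstanceAs (NormedAddCommGroup (ℍ[ℝ] × ℍ[ℝ]))

noncomputable instance : NormedSpace ℝ Oct := inferInstanceAs (NormedSpace ℝ (ℍ[ℝ] × ℍ[ℝ]))

/-- `(a, b) (c, d) = (a c - d* b, d a + b c*)`. -/
noncomputable instance : Mul Oct :=
  ⟨fun x y => (x.1 * y.1 - star y.2 * x.2, y.2 * x.1 + x.2 * star y.1)⟩

/-- The unit is `(1, 0)`. -/
noncomputable instance : One Oct := ⟨((1 : ℍ[ℝ]), (0 : ℍ[ℝ]))⟩

/-- Conjugation `(a, b)* = (a*, -b)`. -/
noncomputable instance : Star Oct := ⟨fun x => (star x.1, -x.2)⟩

end Oct

/-- 3 x 3 matrices over the octonions. -/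
abbrev OMat : Type := Fin 3 → Fin 3 → Oct

/-- Matrix product. -/
noncomputable def omm (A B : OMat) : OMat := fun i j => ∑ k, A i k * B k j

/-- **The Cayley plane**: Hermitian idempotent matrices over the octonions of trace one. -/
def CaP2 : Set OMat :=
  {A | (∀ i j, A j i = star (A i j)) ∧ omm A A = A ∧ ∑ i, A i i = 1}

end Vale.Agent.P216.H893
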