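import Vale.Agent.P216.H133C.Fin
import Vale.Agent.P216.H977C.Final
import Vale.Agent.P216.H893.CaRingOut

/-!
# P216-C : the main theorem for the Cayley plane
-/

open Set Topology Bundle Manifold
open scoped ContDiff

namespace Vale.Agent.P216.H893

section

variable {E : Type} [NormedAddCommGroup E] [NormedSpace ℝ E] [FiniteDimensional ℝ E]
    {M : Type} [MetricSpace M] [CompactSpace M] [ChartedSpace E M] [IsManifold 𝓘(ℝ, E) ∞ M]
    [RiemannianBundle (fun x : M => TangentSpace 𝓘(ℝ, E) x)]
    [IsContMDiffRiemannianBundle 𝓘(ℝ, E) ∞ E (fun x : M => TangentSpace 𝓘(ℝ, E) x)]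
    [IsRiemannianManifold 𝓘(ℝ, E) M]

/-- The theorem for a decomposition in cells of the dimensions `d j`, from THOM and RING. -/
theorem infinite_of_cells (E : Type) [NormedAddCommGroup E] [NormedSpace ℝ E]
    [FiniteDimensional ℝ E]
    {M : Type} [MetricSpace M] [CompactSpace M] [ChartedSpace E M] [IsManifold 𝓘(ℝ, E) ∞ M]
    [RiemannianBundle (fun x : M => TangentSpace 𝓘(ℝ, E) x)]
    [IsContMDiffRiemannianBundle 𝓘(ℝ, E) ∞ E (fun x : M => TangentSpace 𝓘(ℝ, E) x)]
    [IsRiemannianManifold 𝓘(ℝ, E) M] [SimplyConnectedSpace M] {d h : ℕ} (C : H133C.CellDec M d h)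
    (h4 : 4 ∣ d) (hd : 0 < d) (hh : 2 ≤ h) (hT : H133C.ThomOut M (d * h))
    (hR : H133C.RingOut M C) : (primeClosedGeodesicImages M).Infinite := by
  have h6 := Nat.le_of_dvd hd h4
  have hde : Even d := by
    obtain ⟨c, rfl⟩ := h4
    exact ⟨2 * c, by ring⟩
  exact H133C.infinite_of_cellDec (E := E) C h4 hd hh
    (H977C.omegaCGoal C (by omega) hde hh hT hR)

include E in
/-- **Every closed Riemannian manifold homeomorphic to the Cayley plane has infinitely many closed
geodesics.** -/
theorem infinite_of_CaP2 (e : M ≃ₜ ↥CaP2) : (primeClosedGeodesicImages M).Infinite := by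
  have hsc : SimplyConnectedSpace M := e.toHomotopyEquiv.simplyConnectedSpace
  have hpc : PathConnectedSpace M := inferInstance
  exact infinite_of_cells E (cellDecCa.trans e) (by norm_num) (by norm_num) le_rfl
    (H456C.thomOutCa M e) (ringOutCa' M e)

end

end Vale.Agent.P216.H893
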