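import Vale.Agent.P216.H893.CaP2

/-!
# The middle Moufang identity and rotations of the Cayley plane

`rot p c` (`c ^ 2 + |p| ^ 2 = 1`) is the rotation `v₁ ↦ c v₁ - p v₃`, `v₃ ↦ p* v₁ + c v₃`.
-/

open Quaternion Set

set_option linter.unusedSimpArgs false

namespace Vale.Agent.P216.H893

open Oct

/-- The middle Moufang identity. -/
theorem Oct.moufang (p x y : Oct) : (p * x) * (y * p) = p * ((x * y) * p) := by
  apply ext8 <;>
  simp only [mul_fst, mul_snd, add_fst, add_snd, sub_fst, sub_snd, neg_fst, neg_snd, smul_fst,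
    smul_snd, zero_fst, zero_snd, one_fst, one_snd, star_fst, star_snd, ip, nq, re,
    Quaternion.re_mul, Quaternion.imI_mul, Quaternion.imJ_mul, Quaternion.imK_mul,
    Quaternion.re_add, Quaternion.imI_add, Quaternion.imJ_add, Quaternion.imK_add,
    Quaternion.re_sub, Quaternion.imI_sub, Quaternion.imJ_sub, Quaternion.imK_sub,
    Quaternion.re_neg, Quaternion.imI_neg, Quaternion.imJ_neg, Quaternion.imK_neg,
    Quaternion.re_star, Quaternion.imI_star, Quaternion.imJ_star, Quaternion.imK_star,
    Quaternion.re_smul, Quaternion.imI_smul, Quaternion.imJ_smul, Quaternion.imK_smul,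
    Quaternion.re_zero, Quaternion.imI_zero, Quaternion.imJ_zero, Quaternion.imK_zero,
    Quaternion.re_one, Quaternion.imI_one, Quaternion.imJ_one, Quaternion.imK_one,
    smul_eq_mul] <;>
  ring

/-- The rotation in the plane `(v₁, v₃)` on the coordinates of a Hermitian matrix. -/
noncomputable def rot (p : Oct) (c : ℝ) (A : OMat) : OMat :=
  hm (c ^ 2 * xi 0 A + nq p * xi 2 A - 2 * c * ip p (A 0 2)) (xi 1 A)
    (nq p * xi 0 A + c ^ 2 * xi 2 A + 2 * c * ip p (A 0 2))
    (c • A 0 1 - p * star (A 1 2))
    (A 0 2 + (c * (xi 0 A - xi 2 A) - 2 * ip p (A 0 2)) • p)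
    (star (A 0 1) * p + c • A 1 2)

theorem xi_hm0 (a b c : ℝ) (p q r : Oct) : xi 0 (hm a b c p q r) = a := by
  simp [xi, hm00, Oct.re, smul_fst, one_fst]

theorem xi_hm1 (a b c : ℝ) (p q r : Oct) : xi 1 (hm a b c p q r) = b := by
  simp [xi, hm11, Oct.re, smul_fst, one_fst]

theorem xi_hm2 (a b c : ℝ) (p q r : Oct) : xi 2 (hm a b c p q r) = c := by
  simp [xi, hm22, Oct.re, smul_fst, one_fst]

theorem rot_hm (p : Oct) (c : ℝ) (a b e : ℝ) (P Q R : Oct) :
    rot p c (hm a b e P Q R) =
      hm (c ^ 2 * a + nq p * e - 2 * c * ip p Q) b (nq p * a + c ^ 2 * e + 2 * c * ip p Q)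
        (c • P - p * star R) (Q + (c * (a - e) - 2 * ip p Q) • p) (star P * p + c • R) := by
  rw [rot, xi_hm0, xi_hm1, xi_hm2, hm01, hm02, hm12]

theorem nq_sub (x y : Oct) : nq (x - y) = nq x - 2 * ip x y + nq y := by
  have := nq_add x (-y)
  rw [nq_neg, ← sub_eq_add_neg] at this
  have h2 : ip x (-y) = - ip x y := by
    have := ip_smul_right x y (-1)
    rw [neg_one_smul] at this
    linarith
  rw [this, h2]; ring

/-- Rotations preserve the Cayley plane. -/
theorem Eqs.rot {a b e : ℝ} {P Q R : Oct} (h : Eqs a b e P Q R) {p : Oct} {c : ℝ}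
    (hc : c ^ 2 + nq p = 1) :
    Eqs (c ^ 2 * a + nq p * e - 2 * c * ip p Q) b (nq p * a + c ^ 2 * e + 2 * c * ip p Q)
        (c • P - p * star R) (Q + (c * (a - e) - 2 * ip p Q) • p) (star P * p + c • R) := by
  obtain ⟨tr, np, nq', nr, hp, hq, hr⟩ := h
  have hp' : R * star Q = e • star P := by
    have := congrArg star hp
    rwa [star_omul, ostar_star, ostar_smul] at this
  have hq' : star R * star P = b • star Q := by
    have := congrArg star hq
    rwa [star_omul, ostar_smul] at this
  have hr' : star Q * P = a • star R := by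
    have := congrArg star hr
    rwa [star_omul, ostar_star, ostar_smul] at this
  -- `<P, p R*> = b <p, Q>`
  have i1 : ip P (p * star R) = b * ip p Q := by
    rw [ip_comm, ip_mul_right, ostar_star, hq, ip_smul_right]
  have i2 : ip (star P * p) R = b * ip p Q := by
    rw [ip_mul_left, ostar_star, hq, ip_smul_right]
  have n1 : nq P = a * b := np
  constructor
  · linear_combination tr + (a + e) * hc
  · rw [nq_sub, nq_smul, nq_mul, nq_star, ip_smul_left, i1, np, nr]
    ring
  · rw [nq_add, nq_smul, ip_smul_right, nq']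
    have e1 : ip Q p = ip p Q := ip_comm _ _
    rw [e1]
    have e2 : nq p = 1 - c ^ 2 := by linarith
    rw [e2]
    ring
  · rw [nq_add, nq_smul, nq_mul, nq_star, ip_smul_right, i2, np, nr]
    ring
  · have e1 : Q * (star p * P) = (2 * ip p Q) • P - a • (p * star R) := by
      have := alt_left P Q p
      rw [hr', omul_smul, ip_comm Q p] at this
      rw [← this]; abel
    have e2 : star (star P * p + c • R) = star p * P + c • star R := by
      rw [ostar_add, star_omul, ostar_star, ostar_smul]
    rw [e2, omul_add, add_omul, add_omul, e1, omul_smul, hp, smul_omul, mul_star_mul, smul_omul,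
      omul_smul]
    have e3 : nq p = 1 - c ^ 2 := by linarith
    rw [e3]
    module
  · have e1 : (p * star R) * (star P * p) = b • ((2 * ip p Q) • p - nq p • Q) := by
      rw [Oct.moufang, hq', smul_omul, omul_smul]
      have := alt_left p p Q
      rw [star_mul_self, omul_smul, omul_one] at this
      rw [← this]
      congr 1
      abel
    rw [sub_omul, omul_add, omul_add, e1, smul_omul, mul_star_mul, smul_omul, omul_smul, hq,
      omul_smul, mul_star_mul', np, nr]
    have e3 : nq p = 1 - c ^ 2 := by linarith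
    rw [e3]
    module
  · have e1 : (R * star p) * Q = (2 * ip p Q) • R - e • (star P * p) := by
      have := alt_right R p Q
      rw [hp', smul_omul] at this
      rw [← this]; abel
    have e2 : star (c • P - p * star R) = c • star P - R * star p := by
      rw [ostar_sub, ostar_smul, star_omul, ostar_star]
    rw [e2, omul_add, sub_omul, sub_omul, e1, smul_omul, hr, omul_smul, smul_omul, omul_smul,
      mul_star_mul']
    have e3 : nq p = 1 - c ^ 2 := by linarith
    rw [e3]
    module

theorem rot_mem {A : OMat} (hA : A ∈ CaP2) {p : Oct} {c : ℝ} (hc : c ^ 2 + nq p = 1) :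
    rot p c A ∈ CaP2 := by
  rw [rot]
  exact ((eqs_of_mem hA).rot hc).mem

/-- The inverse rotation. -/
theorem rot_rot {A : OMat} (hA : A ∈ CaP2) {p : Oct} {c : ℝ} (hc : c ^ 2 + nq p = 1) :
    rot (-p) c (rot p c A) = A := by
  have e3 : nq p = 1 - c ^ 2 := by linarith
  have hneg : ∀ z : Oct, ip (-p) z = - ip p z := fun z => by
    have := ip_smul_left p z (-1)
    rw [neg_one_smul] at this
    linarith
  conv_rhs => rw [eq_hm hA.1]
  rw [rot, rot, xi_hm0, xi_hm1, xi_hm2, hm01, hm02, hm12, hneg, nq_neg, ip_add_right,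
    ip_smul_right]
  have e4 : ip p p = nq p := rfl
  rw [e4, e3]
  congr 1
  · ring
  · ring
  · rw [ostar_add, star_omul, ostar_star, ostar_smul, omul_add, neg_omul, neg_omul, mul_star_mul,
      omul_smul, e3]
    module
  · module
  · rw [ostar_sub, ostar_smul, star_omul, ostar_star, omul_neg, sub_omul, smul_omul,
      mul_star_mul', e3]
    module

theorem rot_rot' {A : OMat} (hA : A ∈ CaP2) {p : Oct} {c : ℝ} (hc : c ^ 2 + nq p = 1) :
    rot p c (rot (-p) c A) = A := by
  have := rot_rot hA (p := -p) (c := c) (by rw [nq_neg]; exact hc)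
  rwa [neg_neg] at this

end Vale.Agent.P216.H893
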